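import Vale.Agent.P254Z.SF.B
import Vale.Agent.P254.S.H130.Alg

/-!
# P254: the three-variable inequality and the pair kernel
-/

namespace Vale.Agent.P254.SF

open MeasureTheory Filter Topology Set Real Vale.Agent.P254.S130

/-- mean value theorem for divided differences -/
lemma dd_mvt {f f' : ℝ → ℝ} {x y : ℝ} (hxy : x ≤ y) (hd : ∀ t ∈ Icc x y, HasDerivAt f (f' t) t) :
    ∃ t ∈ Icc x y, dd f f' x y = f' t := by
  rcases hxy.eq_or_lt with rfl | hlt
  · exact ⟨x, left_mem_Icc.2 le_rfl, if_pos rfl⟩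
  · obtain ⟨t, ht, e⟩ := exists_hasDerivAt_eq_slope f f' hlt
      (fun t ht => (hd t ht).continuousAt.continuousWithinAt)
      (fun t ht => hd t (Ioo_subset_Icc_self ht))
    refine ⟨t, Ioo_subset_Icc_self ht, ?_⟩
    rw [dd_comm, dd, if_neg hlt.ne', e]

lemma dd_mul (f f' : ℝ → ℝ) (x y : ℝ) : dd f f' x y * (x - y) = f x - f y := by
  unfold dd
  split_ifs with h
  · simp [h]
  · exact div_mul_cancel₀ _ (sub_ne_zero.2 h)

/-- `E0` as a function of `m = h z` -/
noncomputable def tE (m : ℝ) : ℝ := E0 (F m)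

/-- its derivative -/
noncomputable def tE1 (m : ℝ) : ℝ := (kap (F m))⁻¹

/-- the derivative of `F` -/
noncomputable def F1 (m : ℝ) : ℝ := (m * kap (F m))⁻¹

lemma F_hasDerivAt' {m : ℝ} (hm : 0 < m) : HasDerivAt F (F1 m) m := F_hasDerivAt hm

lemma tE_hasDerivAt {m : ℝ} (hm : 0 < m) : HasDerivAt tE (tE1 m) m := by
  refine ((E0_hasDerivAt (F m)).comp m (F_hasDerivAt hm)).congr_deriv ?_
  rw [h_F hm, tE1, mul_inv, ← mul_assoc, mul_inv_cancel₀ hm.ne', one_mul]

lemma tE1_pos (m : ℝ) : 0 < tE1 m := inv_pos.2 (kap_pos _)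

lemma F1_pos {m : ℝ} (hm : 0 < m) : 0 < F1 m := inv_pos.2 (mul_pos hm (kap_pos _))

lemma tE1_eq {m : ℝ} (hm : 0 < m) : tE1 m = m * F1 m := by
  rw [tE1, F1, mul_inv, ← mul_assoc, mul_inv_cancel₀ hm.ne', one_mul]

lemma tE1_mono {x y : ℝ} (hx : 0 < x) (hxy : x ≤ y) : tE1 x ≤ tE1 y :=
  inv_anti₀ (kap_pos _) (kap_strictAnti.antitone
    (F_strictMonoOn.monotoneOn hx (hx.trans_le hxy) hxy))

lemma F1_anti {x y : ℝ} (hx : 0 < x) (hxy : x ≤ y) : F1 y ≤ F1 x := by
  have hy := hx.trans_le hxy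
  have := h1_strictMono.monotone (F_strictMonoOn.monotoneOn hx hy hxy)
  simp only [h_F hx, h_F hy] at this
  exact inv_anti₀ (mul_pos hx (kap_pos _)) this

/-- divided differences of `E0` in the variable `m` -/
noncomputable def tA (x y : ℝ) : ℝ := dd tE tE1 x y

/-- divided differences of `F` -/
noncomputable def ze (x y : ℝ) : ℝ := dd F F1 x y

lemma tA_comm (x y : ℝ) : tA x y = tA y x := dd_comm _ _ _ _

lemma ze_comm (x y : ℝ) : ze x y = ze y x := dd_comm _ _ _ _

lemma tA_mem {x y : ℝ} (hx : 0 < x) (hxy : x ≤ y) : tE1 x ≤ tA x y ∧ tA x y ≤ tE1 y := by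
  obtain ⟨t, ht, e⟩ := dd_mvt (f := tE) (f' := tE1) hxy fun t ht =>
    tE_hasDerivAt (hx.trans_le ht.1)
  rw [tA, e]
  exact ⟨tE1_mono hx ht.1, tE1_mono (hx.trans_le ht.1) ht.2⟩

lemma ze_mem {x y : ℝ} (hx : 0 < x) (hxy : x ≤ y) : F1 y ≤ ze x y ∧ ze x y ≤ F1 x := by
  obtain ⟨t, ht, e⟩ := dd_mvt (f := F) (f' := F1) hxy fun t ht => F_hasDerivAt' (hx.trans_le ht.1)
  rw [ze, e]
  exact ⟨F1_anti (hx.trans_le ht.1) ht.2, F1_anti hx ht.1⟩

lemma tA_pos {x y : ℝ} (hx : 0 < x) (hy : 0 < y) : 0 < tA x y := by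
  rcases le_total x y with h | h
  · exact (tE1_pos x).trans_le (tA_mem hx h).1
  · rw [tA_comm]; exact (tE1_pos y).trans_le (tA_mem hy h).1

lemma ze_pos {x y : ℝ} (hx : 0 < x) (hy : 0 < y) : 0 < ze x y := by
  rcases le_total x y with h | h
  · exact (F1_pos hy).trans_le (ze_mem hx h).1
  · rw [ze_comm]; exact (F1_pos hx).trans_le (ze_mem hy h).1

lemma triple_ord {x y w : ℝ} (hx : 0 < x) (hxy : x ≤ y) (hyw : y ≤ w) :
    x * tA y w ^ 2 + y * tA x w ^ 2 + w * tA x y ^ 2 ≤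
      x * (tA x y * tA x w) + y * (tA x y * tA y w) + w * (tA x w * tA y w) := by
  have hy := hx.trans_le hxy
  have hw := hy.trans_le hyw
  rcases (hxy.trans hyw).eq_or_lt with rfl | hlt
  · obtain rfl : x = y := le_antisymm hxy hyw
    nlinarith
  have h1 := tA_mem hx hxy
  have h2 := tA_mem hy hyw
  have h3 : x * tE1 w ≤ w * tE1 x := by
    rw [tE1_eq hw, tE1_eq hx]
    have := F1_anti hx hlt.le
    have : x * w * F1 w ≤ x * w * F1 x := by gcongr
    linarith
  have e1 := dd_mul tE tE1 x y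
  have e2 := dd_mul tE tE1 y w
  have e3 := dd_mul tE tE1 x w
  change tA x y * _ = _ at e1
  change tA y w * _ = _ at e2
  change tA x w * _ = _ at e3
  have hc := tA_pos hx hy
  generalize tA x y = c at *
  generalize tA y w = a at *
  generalize tA x w = e at *
  have hd : 0 < w - x := sub_pos.2 hlt
  obtain ⟨s, hs⟩ : ∃ s, s = (w - y) / (w - x) := ⟨_, rfl⟩
  have hs0 : 0 ≤ s := hs ▸ div_nonneg (sub_nonneg.2 hyw) hd.le
  have hs1 : s * (w - x) = w - y := hs ▸ div_mul_cancel₀ _ hd.ne'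
  have he : e = c + s * (a - c) := by
    refine mul_right_cancel₀ hd.ne' ?_
    linear_combination -e3 + e1 + e2 - (a - c) * hs1
  have hδ : 0 ≤ a - c := by linarith [h1.2, h2.1]
  have k1 : x * (a - c) ≤ (w - x) * c := by
    have : x * a ≤ x * tE1 w := by gcongr; exact h2.2
    have : w * tE1 x ≤ w * c := by gcongr; exact h1.1
    linarith
  have k2 : 0 ≤ (1 - s + s ^ 2) * (a - c) *
      (2 * (w - x) * c + (a - c) * (s * (w - x) - x)) := by
    refine mul_nonneg (mul_nonneg (by nlinarith) hδ) ?_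
    have : 0 ≤ (a - c) * (s * (w - x)) := by positivity
    have : 0 ≤ (w - x) * c := by positivity
    nlinarith
  have hy' : y = w - s * (w - x) := by linarith
  rw [he, hy']
  nlinarith

/-- **The three-variable inequality**, in the variable `m`. -/
theorem triple {x y w : ℝ} (hx : 0 < x) (hy : 0 < y) (hw : 0 < w) :
    tA y w ^ 2 / (y * w) + tA x w ^ 2 / (x * w) + tA x y ^ 2 / (x * y) ≤
      tA x y * tA x w / (y * w) + tA y x * tA y w / (x * w) + tA w x * tA w y / (x * y) := by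
  have key : x * tA y w ^ 2 + y * tA x w ^ 2 + w * tA x y ^ 2 ≤
      x * (tA x y * tA x w) + y * (tA x y * tA y w) + w * (tA x w * tA y w) := by
    have c1 := tA_comm y x
    have c2 := tA_comm w x
    have c3 := tA_comm w y
    rcases le_total x y with h1 | h1 <;> rcases le_total y w with h2 | h2 <;>
      rcases le_total x w with h3 | h3
    · exact triple_ord hx h1 h2
    · exact triple_ord hx h1 h2
    · have := triple_ord hx h3 h2; rw [c3] at this; linarith
    · have := triple_ord hw h3 h1; rw [c2, c3] at this; linarith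
    · have := triple_ord hy h1 h3; rw [c1] at this; linarith
    · have := triple_ord hy h2 h3; rw [c1, c2] at this; linarith
    · have := triple_ord hw h2 h1; rw [c1, c2, c3] at this; linarith
    · have := triple_ord hw h2 h1; rw [c1, c2, c3] at this; linarith
  rw [tA_comm y x, tA_comm w x, tA_comm w y, ← sub_nonneg]
  have e : tA x y * tA x w / (y * w) + tA x y * tA y w / (x * w) + tA x w * tA y w / (x * y) -
      (tA y w ^ 2 / (y * w) + tA x w ^ 2 / (x * w) + tA x y ^ 2 / (x * y)) =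
      (x * (tA x y * tA x w) + y * (tA x y * tA y w) + w * (tA x w * tA y w) -
        (x * tA y w ^ 2 + y * tA x w ^ 2 + w * tA x y ^ 2)) / (x * y * w) := by
    field_simp
  rw [e]
  exact div_nonneg (sub_nonneg.2 key) (by positivity)

/-- the pair kernel `ρ (z, z') = (mean of h on [z, z'])² / (h z h z')` -/
noncomputable def rho (z z' : ℝ) : ℝ := dd E0 h z z' ^ 2 / (h z * h z')

lemma rho_comm (z z' : ℝ) : rho z z' = rho z' z := by rw [rho, rho, dd_comm, mul_comm]

/-- chain rule for divided differences: `f[x, y]` in `m` is `f[z, z']` in `z` times `ζ`. -/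
lemma dd_chain (f f' : ℝ → ℝ) {x y : ℝ} (hx : 0 < x) (hy : 0 < y) :
    dd (fun m => f (F m)) (fun m => f' (F m) * F1 m) x y = dd f f' (F x) (F y) * ze x y := by
  unfold ze dd
  by_cases hxy : x = y
  · simp [hxy]
  · have h1 : F x ≠ F y := fun e => hxy (by rw [← h_F hx, e, h_F hy])
    rw [if_neg hxy, if_neg hxy, if_neg h1]
    have := sub_ne_zero.2 h1
    field_simp

lemma tA_eq {x y : ℝ} (hx : 0 < x) (hy : 0 < y) : tA x y = dd E0 h (F x) (F y) * ze x y := by
  rw [← dd_chain E0 h hx hy, tA]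
  unfold dd
  split_ifs
  · simp only [h_F hx, tE1_eq hx]
  · rfl

lemma pair_eq {x y : ℝ} (hx : 0 < x) (hy : 0 < y) :
    tA x y ^ 2 / (x * y) = rho (F x) (F y) * ze x y ^ 2 := by
  rw [tA_eq hx hy, rho, h_F hx, h_F hy]
  ring

/-- **The three-variable inequality with the pair kernel.** -/
theorem triple_rho {x y w : ℝ} (hx : 0 < x) (hy : 0 < y) (hw : 0 < w) :
    rho (F y) (F w) * ze y w ^ 2 + rho (F x) (F w) * ze x w ^ 2 + rho (F x) (F y) * ze x y ^ 2 ≤
      tA x y * tA x w / (y * w) + tA y x * tA y w / (x * w) + tA w x * tA w y / (x * y) := by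
  rw [← pair_eq hy hw, ← pair_eq hx hw, ← pair_eq hx hy]
  exact triple hx hy hw

/-! ### The Sturm-Liouville form of the pair kernel -/

/-- the potential `q = κ² / 4 + v / 2` -/
noncomputable def qq (z : ℝ) : ℝ := kap z ^ 2 / 4 + va z / 2

lemma qq_pos (z : ℝ) : 0 < qq z := by
  have := va_pos z
  unfold qq
  positivity

lemma qq_strictAnti : StrictAnti qq := fun x y hxy => by
  have h1 := kap_strictAnti hxy
  have h2 := va_strictAnti hxy
  have h3 := kap_pos y
  unfold qq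
  nlinarith

/-- `h ^ (-1/2)` -/
noncomputable def y1 (z : ℝ) : ℝ := exp (-log (h z) / 2)

lemma y1_pos (z : ℝ) : 0 < y1 z := exp_pos _

lemma y1_sq (z : ℝ) : y1 z ^ 2 = (h z)⁻¹ := by
  rw [y1, ← exp_nat_mul, ← exp_log (inv_pos.2 (h_pos z)), log_inv]
  congr 1
  push_cast
  ring

lemma y1_hasDerivAt (z : ℝ) : HasDerivAt y1 (-(kap z / 2) * y1 z) z := by
  refine (((log_h_hasDerivAt z).neg.div_const 2).exp).congr_deriv ?_
  simp only [y1, Pi.neg_apply]
  ring

/-- `ψ (x, z) = (E0 z - E0 x) / √(h x h z)` -/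
noncomputable def psi (x z : ℝ) : ℝ := (E0 z - E0 x) * y1 x * y1 z

/-- its derivative in the second variable -/
noncomputable def psi1 (x z : ℝ) : ℝ := h z * y1 x * y1 z - kap z / 2 * psi x z

lemma psi_self (x : ℝ) : psi x x = 0 := by simp [psi]

lemma psi1_self (x : ℝ) : psi1 x x = 1 := by
  rw [psi1, psi_self, mul_zero, sub_zero, mul_assoc, ← sq, y1_sq, mul_inv_cancel₀ (h_pos x).ne']

lemma psi_swap (x z : ℝ) : psi z x = -psi x z := by unfold psi; ring

lemma psi_hasDerivAt (x z : ℝ) : HasDerivAt (psi x) (psi1 x z) z := by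
  refine ((((E0_hasDerivAt z).sub_const (E0 x)).mul_const (y1 x)).mul
    (y1_hasDerivAt z)).congr_deriv ?_
  unfold psi1 psi
  ring

lemma psi1_hasDerivAt (x z : ℝ) : HasDerivAt (psi1 x) (qq z * psi x z) z := by
  refine ((((h_hasDerivAt z).mul_const (y1 x)).mul (y1_hasDerivAt z)).sub
    (((kap_hasDerivAt z).div_const 2).mul (psi_hasDerivAt x z))).congr_deriv ?_
  unfold psi1 qq
  ring

lemma psi_nonneg {x z : ℝ} (hxz : x ≤ z) : 0 ≤ psi x z :=
  mul_nonneg (mul_nonneg (sub_nonneg.2 (E0_strictMono.monotone hxz)) (y1_pos x).le) (y1_pos z).le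

lemma rho_mul (x z : ℝ) : rho x z * (z - x) ^ 2 = psi x z ^ 2 := by
  have := dd_mul E0 h x z
  rw [rho, psi, mul_pow, mul_pow, y1_sq, y1_sq]
  have h1 := (h_pos x).ne'
  have h2 := (h_pos z).ne'
  field_simp
  linear_combination (dd E0 h x z * (x - z) + (E0 x - E0 z)) * this

lemma rho_self (x : ℝ) : rho x x = 1 := by
  rw [rho, dd, if_pos rfl, sq, div_self (mul_pos (h_pos x) (h_pos x)).ne']

/-- a function with nonnegative derivative on `[x, z]` -/
lemma le_of_deriv_nonneg {u u' : ℝ → ℝ} {x z : ℝ} (hxz : x ≤ z)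
    (hd : ∀ t ∈ Icc x z, HasDerivAt u (u' t) t) (hn : ∀ t ∈ Icc x z, 0 ≤ u' t) : u x ≤ u z := by
  obtain ⟨t, ht, e⟩ := dd_mvt hxz hd
  have := dd_mul u u' x z
  rw [e] at this
  nlinarith [hn t ht]

/-- Comparison: if `g'' ≤ q g₀` on `[x, z]` with `g₀ ≤ ψ`, `g x ≤ 0`, `g' x ≤ 1`, then `g ≤ ψ`. -/
lemma le_psi {g g' g'' : ℝ → ℝ} {x z : ℝ} (hxz : x ≤ z)
    (h1 : ∀ t ∈ Icc x z, HasDerivAt g (g' t) t) (h2 : ∀ t ∈ Icc x z, HasDerivAt g' (g'' t) t)
    (h3 : ∀ t ∈ Icc x z, g'' t ≤ qq t * psi x t) (h4 : g x ≤ 0) (h5 : g' x ≤ 1) :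
    g z ≤ psi x z := by
  have k1 : ∀ t ∈ Icc x z, 0 ≤ psi1 x t - g' t := fun t ht => by
    have := le_of_deriv_nonneg (u := fun t => psi1 x t - g' t)
      (u' := fun t => qq t * psi x t - g'' t) ht.1
      (fun s hs => (psi1_hasDerivAt x s).sub (h2 s ⟨hs.1, hs.2.trans ht.2⟩))
      (fun s hs => sub_nonneg.2 (h3 s ⟨hs.1, hs.2.trans ht.2⟩))
    rw [psi1_self] at this
    linarith
  have := le_of_deriv_nonneg (u := fun t => psi x t - g t) (u' := fun t => psi1 x t - g' t) hxz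
    (fun s hs => (psi_hasDerivAt x s).sub (h1 s hs)) k1
  rw [psi_self] at this
  linarith

lemma sub_le_psi {x z : ℝ} (hxz : x ≤ z) : z - x ≤ psi x z :=
  le_psi (g := fun t => t - x) (g' := fun _ => 1) (g'' := fun _ => 0) hxz
    (fun t _ => (hasDerivAt_id t).sub_const x) (fun t _ => hasDerivAt_const t 1)
    (fun t ht => mul_nonneg (qq_pos t).le (psi_nonneg ht.1)) (by simp) le_rfl

lemma cubic_le_psi {x z : ℝ} (hxz : x ≤ z) : (z - x) + qq z * (z - x) ^ 3 / 6 ≤ psi x z :=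
  le_psi (g := fun t => (t - x) + qq z * (t - x) ^ 3 / 6)
    (g' := fun t => 1 + qq z * (t - x) ^ 2 / 2) (g'' := fun t => qq z * (t - x)) hxz
    (fun t _ => (((hasDerivAt_id t).sub_const x).add
      (((((hasDerivAt_id t).sub_const x).pow 3).const_mul (qq z)).div_const 6)).congr_deriv (by
        simp only [id, Nat.cast_ofNat]; ring))
    (fun t _ => ((((((hasDerivAt_id t).sub_const x).pow 2).const_mul (qq z)).div_const
      2).const_add 1).congr_deriv (by simp only [id, Nat.cast_ofNat]; ring))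
    (fun t ht => mul_le_mul (qq_strictAnti.antitone ht.2) (sub_le_psi ht.1) (sub_nonneg.2 ht.1)
      (qq_pos t).le) (by simp) (by simp)

/-- `ρ ≥ (1 + q Δ² / 6)²`, with `q` at the right end point -/
theorem rho_ge {x z : ℝ} (hxz : x ≤ z) : (1 + qq z * (z - x) ^ 2 / 6) ^ 2 ≤ rho x z := by
  rcases hxz.eq_or_lt with rfl | hlt
  · simp [rho_self]
  have hd : 0 < z - x := sub_pos.2 hlt
  have h1 := cubic_le_psi hxz
  have h2 := qq_pos z
  refine le_of_mul_le_mul_right ?_ (pow_pos hd 2)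
  rw [rho_mul, ← mul_pow]
  refine pow_le_pow_left₀ (by positivity) (le_trans (le_of_eq ?_) h1) 2
  ring

theorem one_le_rho (x z : ℝ) : 1 ≤ rho x z := by
  wlog hxz : x ≤ z generalizing x z
  · rw [rho_comm]; exact this z x (le_of_not_ge hxz)
  refine le_trans (one_le_pow₀ ?_) (rho_ge hxz)
  have := qq_pos z
  have : 0 ≤ qq z * (z - x) ^ 2 / 6 := by positivity
  linarith

end Vale.Agent.P254.SF
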