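import Vale.Agent.P254Z.SF.Basic

/-!
# P254: the function `b = E0 / h`, the inverse `F` of `h`
-/

namespace Vale.Agent.P254.SF

open MeasureTheory Filter Topology Set Real

lemma h1_pos (z : ℝ) : 0 < h z * kap z := mul_pos (h_pos z) (kap_pos z)

lemma h1_lt_one (z : ℝ) : h z * kap z < 1 := by have := va_pos z; unfold va at this; linarith

lemma h_strictMono : StrictMono h := strictMono_of_hasDerivAt_pos h_hasDerivAt h1_pos

lemma kap_strictAnti : StrictAnti kap :=
  strictAnti_of_hasDerivAt_neg kap_hasDerivAt fun z => neg_neg_of_pos (va_pos z)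

lemma va_strictAnti : StrictAnti va :=
  strictAnti_of_hasDerivAt_neg va_hasDerivAt fun z =>
    neg_neg_of_pos (mul_pos (h_pos z) (sub_pos.2 (va_lt z)))

lemma va_lt_one (z : ℝ) : va z < 1 := by have := h1_pos z; unfold va; linarith

/-- `h'` is increasing -/
lemma h1_strictMono : StrictMono fun z => h z * kap z := fun x y hxy => by
  have := va_strictAnti hxy
  unfold va at this
  simp only
  linarith

lemma E0_strictMono : StrictMono E0 := strictMono_of_hasDerivAt_pos E0_hasDerivAt h_pos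

lemma lt_h (z : ℝ) : z < h z := by have := kap_pos z; unfold kap at this; linarith

lemma h_tendsto_atTop : Tendsto h atTop atTop :=
  tendsto_atTop_mono (fun z => (lt_h z).le) tendsto_id

/-- the second moment `1 - z κ = v + κ²` -/
lemma m2_pos (z : ℝ) : 0 < 1 - z * kap z := by
  have := va_pos z; rw [va_eq] at this; nlinarith [sq_nonneg (kap z)]

lemma b_pos (z : ℝ) : 0 < b z := div_pos (E0_pos z) (h_pos z)

lemma h_mul_b (z : ℝ) : h z * b z = E0 z := mul_div_cancel₀ _ (h_pos z).ne'

lemma b_hasDerivAt (z : ℝ) : HasDerivAt b (b1 z) z := by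
  refine ((E0_hasDerivAt z).div (h_hasDerivAt z) (h_pos z).ne').congr_deriv ?_
  have := (h_pos z).ne'
  unfold b1 b
  field_simp

lemma b1_hasDerivAt (z : ℝ) : HasDerivAt b1 (b2 z) z := by
  refine (((kap_hasDerivAt z).mul (b_hasDerivAt z)).const_sub 1).congr_deriv ?_
  unfold b2 b1
  rw [va_eq]
  ring

/-- `b'''` -/
noncomputable def b3 (z : ℝ) : ℝ :=
  (z * va z - kap z) * b z + (1 - z * kap z) * b1 z + va z

lemma b2_hasDerivAt (z : ℝ) : HasDerivAt b2 (b3 z) z := by
  refine (((((hasDerivAt_id z).mul (kap_hasDerivAt z)).const_sub 1).mul (b_hasDerivAt z)).sub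
    (kap_hasDerivAt z)).congr_deriv ?_
  unfold b3
  simp only [id, Pi.mul_apply]
  ring

lemma hk_hasDerivAt (z : ℝ) :
    HasDerivAt (fun z => h z / kap z) (h z + h z * va z / kap z ^ 2) z := by
  refine ((h_hasDerivAt z).div (kap_hasDerivAt z) (kap_pos z).ne').congr_deriv ?_
  have := (kap_pos z).ne'
  field_simp
  ring

lemma one_lt_kap {z : ℝ} (hz : z ≤ -1) : 1 < kap z := by unfold kap; linarith [h_pos z]

lemma hk_tendsto_atBot : Tendsto (fun z => h z / kap z) atBot (𝓝 0) :=
  tendsto_of_tendsto_of_tendsto_of_le_of_le' tendsto_const_nhds h_tendsto_atBot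
    (Eventually.of_forall fun z => (div_pos (h_pos z) (kap_pos z)).le)
    ((eventually_le_atBot (-1)).mono fun z hz => div_le_self (h_pos z).le (one_lt_kap hz).le)

/-- `0 < b'` -/
lemma b1_pos (z : ℝ) : 0 < b1 z := by
  have hl := hk_tendsto_atBot.sub E0_tendsto_atBot
  rw [sub_zero] at hl
  have := pos_of_mono (u := fun x => h x / kap x - E0 x)
    (u' := fun x => h x * va x / kap x ^ 2) (z := z)
    (fun x _ => ((hk_hasDerivAt x).sub (E0_hasDerivAt x)).congr_deriv (by ring))
    (fun x _ => div_pos (mul_pos (h_pos x) (va_pos x)) (pow_pos (kap_pos x) 2)) hl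
  rw [sub_pos, lt_div_iff₀ (kap_pos z), ← h_mul_b] at this
  unfold b1
  nlinarith [h_pos z]

/-- `b' < 1 / 2` -/
lemma b1_lt (z : ℝ) : b1 z < 1 / 2 := by
  have hl := E0_tendsto_atBot.sub (hk_tendsto_atBot.div_const 2)
  rw [zero_div, sub_zero] at hl
  have := pos_of_mono (u := fun x => E0 x - h x / kap x / 2)
    (u' := fun x => h x * (kap x ^ 2 - va x) / (2 * kap x ^ 2)) (z := z)
    (fun x _ => ((E0_hasDerivAt x).sub ((hk_hasDerivAt x).div_const 2)).congr_deriv (by
      have := (kap_pos x).ne'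
      field_simp
      ring))
    (fun x _ => div_pos (mul_pos (h_pos x) (sub_pos.2 (va_lt x)))
      (mul_pos two_pos (pow_pos (kap_pos x) 2))) hl
  rw [sub_pos, div_div, div_lt_iff₀ (mul_pos (kap_pos z) two_pos), ← h_mul_b] at this
  unfold b1
  nlinarith [h_pos z]

lemma b_strictMono : StrictMono b := strictMono_of_hasDerivAt_pos b_hasDerivAt b1_pos

/-- polynomial moments of the tail vanish at infinity -/
lemma pow_J_tendsto (k : ℕ) : Tendsto (fun z => z ^ k * J z) atTop (𝓝 0) := by
  have h1 : Tendsto (fun z : ℝ => z ^ k * exp (-z)) atTop (𝓝 0) :=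
    tendsto_pow_mul_exp_neg_atTop_nhds_zero k
  refine tendsto_of_tendsto_of_tendsto_of_le_of_le' tendsto_const_nhds h1
    ((eventually_ge_atTop 0).mono fun z hz => mul_nonneg (pow_nonneg hz k) (J_pos z).le)
    ((eventually_ge_atTop 2).mono fun z hz => ?_)
  have h2 : J z ≤ ph z := by
    have := lt_h z
    rw [h, lt_div_iff₀ (J_pos z)] at this
    nlinarith [J_pos z]
  have h3 : ph z ≤ exp (-z) := exp_le_exp.2 (by nlinarith)
  gcongr
  exact h2.trans h3

/-- the cubic inequality behind `b'' > 0` -/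
lemma cubic (z : ℝ) : kap z ^ 2 * (3 - z * kap z) < (1 - z * kap z) * (2 - z * kap z) := by
  have hd : ∀ x, HasDerivAt (fun x => ((1 - x * kap x) * (2 - x * kap x) -
      kap x ^ 2 * (3 - x * kap x)) * J x ^ 3)
      (-(h x * ((1 - x * kap x) * (3 - x * kap x) - 4 * kap x ^ 2) * J x ^ 3)) x := by
    intro x
    have y := (hasDerivAt_id x).mul (kap_hasDerivAt x)
    refine ((((y.const_sub 1).mul (y.const_sub 2)).sub
      (((kap_hasDerivAt x).pow 2).mul (y.const_sub 3))).mul
        ((J_hasDerivAt x).pow 3)).congr_deriv ?_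
    have e : ph x = h x * J x := (div_mul_cancel₀ _ (J_pos x).ne').symm
    simp only [id, Pi.mul_apply, Pi.pow_apply, Pi.sub_apply, Nat.cast_ofNat,
      Nat.add_one_sub_one, pow_one]
    rw [e, va_eq, h_eq]
    ring
  have hl : Tendsto (fun x => ((1 - x * kap x) * (2 - x * kap x) -
      kap x ^ 2 * (3 - x * kap x)) * J x ^ 3) atTop (𝓝 0) := by
    have h1 : Tendsto (fun x => 5 * J x ^ 3) atTop (𝓝 0) := by
      simpa using (J_tendsto_atTop.pow 3).const_mul 5
    refine squeeze_zero_norm' ((eventually_ge_atTop 1).mono fun x hx => ?_) h1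
    rw [norm_mul, norm_of_nonneg (pow_pos (J_pos x) 3).le, norm_eq_abs]
    gcongr
    · exact (pow_pos (J_pos x) 3).le
    have k0 := kap_pos x
    have k1 := m2_pos x
    have k2 : 0 < x * kap x := by positivity
    have k3 : kap x < 1 := by nlinarith
    have k4 : kap x ^ 2 < 1 := by nlinarith
    have k5 : 0 < kap x ^ 2 := by positivity
    rw [abs_le]
    constructor <;> nlinarith
  have := pos_of_anti (z := z) (fun x _ => hd x) (fun x _ => neg_neg_of_pos
    (mul_pos (mul_pos (h_pos x) (sub_pos.2 (borell x))) (pow_pos (J_pos x) 3))) hl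
  exact sub_pos.1 (pos_of_mul_pos_left this (pow_pos (J_pos z) 3).le)

/-- `0 < b''` -/
lemma b2_pos (z : ℝ) : 0 < b2 z := by
  have hl0 : Tendsto (fun x => h x * kap x / (1 - x * kap x)) atBot (𝓝 0) :=
    tendsto_of_tendsto_of_tendsto_of_le_of_le' tendsto_const_nhds h_tendsto_atBot
      (Eventually.of_forall fun z => (div_pos (h1_pos z) (m2_pos z)).le)
      ((eventually_le_atBot (-1)).mono fun z hz => by
        rw [div_le_iff₀ (m2_pos z)]
        have := h_pos z
        gcongr
        nlinarith [kap_pos z])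
  have hl := E0_tendsto_atBot.sub hl0
  rw [sub_zero] at hl
  have := pos_of_mono (u := fun x => E0 x - h x * kap x / (1 - x * kap x))
    (u' := fun x => h x * ((1 - x * kap x) * (2 - x * kap x) - kap x ^ 2 * (3 - x * kap x)) /
      (1 - x * kap x) ^ 2) (z := z)
    (fun x _ => by
      refine ((E0_hasDerivAt x).sub (((h_hasDerivAt x).mul (kap_hasDerivAt x)).div
        (((hasDerivAt_id x).mul (kap_hasDerivAt x)).const_sub 1) (m2_pos x).ne')).congr_deriv ?_
      have := (m2_pos x).ne'
      simp only [id, Pi.mul_apply]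
      rw [va_eq, sub_div' (pow_ne_zero 2 this)]
      congr 1
      ring)
    (fun x _ => div_pos (mul_pos (h_pos x) (sub_pos.2 (cubic x))) (pow_pos (m2_pos x) 2)) hl
  rw [sub_pos, div_lt_iff₀ (m2_pos z), ← h_mul_b] at this
  unfold b2
  nlinarith [h_pos z]

lemma b1_strictMono : StrictMono b1 := strictMono_of_hasDerivAt_pos b1_hasDerivAt b2_pos

/-! ### The inverse function -/

/-- the inverse of the hazard function on `(0, ∞)` -/
noncomputable def F (m : ℝ) : ℝ := Function.invFun h m

lemma F_h (z : ℝ) : F (h z) = z := Function.leftInverse_invFun h_strictMono.injective z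

lemma exists_h {m : ℝ} (hm : 0 < m) : ∃ z, h z = m := by
  obtain ⟨x, hx⟩ := (h_tendsto_atBot.eventually (gt_mem_nhds hm)).exists
  exact intermediate_value_univ x m h_continuous ⟨hx.le, (lt_h m).le⟩

lemma h_F {m : ℝ} (hm : 0 < m) : h (F m) = m := Function.invFun_eq (exists_h hm)

lemma F_strictMonoOn : StrictMonoOn F (Ioi 0) := fun x hx y hy hxy =>
  h_strictMono.lt_iff_lt.1 (by rwa [h_F hx, h_F hy])

lemma F_continuousAt {m : ℝ} (hm : 0 < m) : ContinuousAt F m := by
  refine F_strictMonoOn.continuousAt_of_image_mem_nhds (Ioi_mem_nhds hm) ?_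
  have : F '' Ioi 0 = univ := eq_univ_of_forall fun z => ⟨h z, h_pos z, F_h z⟩
  rw [this]
  exact univ_mem

lemma F_hasDerivAt {m : ℝ} (hm : 0 < m) : HasDerivAt F (m * kap (F m))⁻¹ m := by
  have := HasDerivAt.of_local_left_inverse (F_continuousAt hm) (h_hasDerivAt (F m))
    (h1_pos _).ne' ((lt_mem_nhds hm).mono fun y hy => h_F hy)
  rwa [h_F hm] at this

lemma kap_F {m : ℝ} (hm : 0 < m) : kap (F m) = m - F m := by unfold kap; rw [h_F hm]

/-- `F` is concave -/
lemma F_concaveOn : ConcaveOn ℝ (Ioi 0) F := by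
  refine AntitoneOn.concaveOn_of_deriv (convex_Ioi 0)
    (fun m hm => (F_continuousAt hm).continuousWithinAt) (fun m hm => ?_) fun x hx y hy hxy => ?_
  · rw [interior_Ioi] at hm
    exact (F_hasDerivAt hm).differentiableAt.differentiableWithinAt
  · rw [interior_Ioi] at hx hy
    rw [(F_hasDerivAt hx).deriv, (F_hasDerivAt hy).deriv]
    have := h1_strictMono.monotone (F_strictMonoOn.monotoneOn hx hy hxy)
    simp only [h_F hx, h_F hy] at this
    exact inv_anti₀ (mul_pos hx (kap_pos _)) this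

lemma hk_strictMono : StrictMono fun z => h z / kap z :=
  strictMono_of_hasDerivAt_pos hk_hasDerivAt fun z =>
    add_pos (h_pos z) (div_pos (mul_pos (h_pos z) (va_pos z)) (pow_pos (kap_pos z) 2))

lemma F_inv_hasDerivAt {s : ℝ} (hs : 0 < s) :
    HasDerivAt (fun s => F s⁻¹) (-(h (F s⁻¹) / kap (F s⁻¹))) s := by
  refine ((F_hasDerivAt (inv_pos.2 hs)).comp s (hasDerivAt_inv hs.ne')).congr_deriv ?_
  rw [h_F (inv_pos.2 hs)]
  have := (kap_pos (F s⁻¹)).ne'
  field_simp

/-- `s ↦ F (1 / s)`, the inverse of the Mills ratio, is convex -/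
lemma F_inv_convexOn : ConvexOn ℝ (Ioi 0) fun s => F s⁻¹ := by
  refine MonotoneOn.convexOn_of_deriv (convex_Ioi 0)
    (fun m hm => (F_inv_hasDerivAt hm).continuousAt.continuousWithinAt) (fun m hm => ?_)
    fun x hx y hy hxy => ?_
  · rw [interior_Ioi] at hm
    exact (F_inv_hasDerivAt hm).differentiableAt.differentiableWithinAt
  · rw [interior_Ioi] at hx hy
    rw [(F_inv_hasDerivAt hx).deriv, (F_inv_hasDerivAt hy).deriv, neg_le_neg_iff]
    exact hk_strictMono.monotone (F_strictMonoOn.monotoneOn (mem_Ioi.2 (inv_pos.2 hy))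
      (mem_Ioi.2 (inv_pos.2 hx)) (inv_anti₀ hx hxy))

lemma F_tendsto_atTop : Tendsto F atTop atTop := by
  refine tendsto_atTop.2 fun z => ?_
  filter_upwards [eventually_ge_atTop (h z)] with m hm
  rw [← F_h z]
  exact F_strictMonoOn.monotoneOn (h_pos z) ((h_pos z).trans_le hm) hm

lemma F_tendsto_zero : Tendsto F (𝓝[>] 0) atBot := by
  refine tendsto_atBot.2 fun z => ?_
  filter_upwards [Ioo_mem_nhdsGT (h_pos z)] with m hm
  rw [← F_h z]
  exact F_strictMonoOn.monotoneOn hm.1 (h_pos z) hm.2.le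

end Vale.Agent.P254.SF
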