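import Vale.Agent.P254Z.SF.Pt

/-!
# P254: certified enclosures of `h`, `b` and their derivatives on a cell
-/

namespace Vale.Agent.P254.SF

open MeasureTheory Filter Topology Set Real B

/-- `h''` -/
noncomputable def H2 (z : ℝ) : ℝ := h z * (kap z ^ 2 - va z)

/-- `h'''` -/
noncomputable def H3 (z : ℝ) : ℝ := 2 * (1 - va z) ^ 2 + (h z + kap z) * H2 z - 2 * (1 - va z)

/-- `b''''` -/
noncomputable def b4 (z : ℝ) : ℝ := 3 * b2 z + z * b3 z - H2 z

lemma H2_pos (z : ℝ) : 0 < H2 z := mul_pos (h_pos z) (sub_pos.2 (va_lt z))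

lemma h_hasDerivAt' (z : ℝ) : HasDerivAt h (1 - va z) z :=
  (h_hasDerivAt z).congr_deriv (by unfold va; ring)

lemma va_hasDerivAt' (z : ℝ) : HasDerivAt va (-H2 z) z := va_hasDerivAt z

lemma H2_eq (z : ℝ) : H2 z = (h z + kap z) * (1 - va z) - h z := by
  unfold H2 va; ring

lemma H2_hasDerivAt (z : ℝ) : HasDerivAt H2 (H3 z) z := by
  rw [show H2 = fun z => (h z + kap z) * (1 - va z) - h z from funext H2_eq]
  refine ((((h_hasDerivAt' z).add (kap_hasDerivAt z)).mul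
    ((va_hasDerivAt' z).const_sub 1)).sub (h_hasDerivAt' z)).congr_deriv ?_
  simp only [H3, Pi.add_apply]
  ring

lemma H3_hasDerivAt (z : ℝ) :
    HasDerivAt H3 ((h z + kap z) * H3 z + (3 - 6 * va z) * H2 z + 0) z := by
  have v := (va_hasDerivAt' z).const_sub 1
  refine ((((v.pow 2).const_mul 2).add (((h_hasDerivAt' z).add (kap_hasDerivAt z)).mul
    (H2_hasDerivAt z))).sub (v.const_mul 2)).congr_deriv ?_
  simp only [Pi.add_apply, Nat.cast_ofNat, Nat.add_one_sub_one, pow_one]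
  ring

lemma b2_eq (z : ℝ) : b2 z = b z + z * b1 z - h z := by
  unfold b2 b1; rw [h_eq z]; ring

lemma b3_eq (z : ℝ) : b3 z = 2 * b1 z + z * b2 z - (1 - va z) := by
  unfold b3 b2 b1; rw [va_eq]; ring

lemma b3_hasDerivAt (z : ℝ) : HasDerivAt b3 (b4 z) z := by
  rw [show b3 = fun z => 2 * b1 z + z * b2 z - (1 - va z) from funext b3_eq]
  refine ((((b1_hasDerivAt z).const_mul 2).add ((hasDerivAt_id z).mul (b2_hasDerivAt z))).sub
    ((va_hasDerivAt' z).const_sub 1)).congr_deriv ?_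
  simp only [b4, id]
  ring

lemma b4_hasDerivAt (z : ℝ) : HasDerivAt b4 (z * b4 z + 4 * b3 z + -H3 z) z := by
  refine ((((b2_hasDerivAt z).const_mul 3).add ((hasDerivAt_id z).mul (b3_hasDerivAt z))).sub
    (H2_hasDerivAt z)).congr_deriv ?_
  simp only [id]
  ring

/-- absolute value of a ball -/
def ab : B → B
  | B.mk m r => mk' (Int.ofNat (Int.natAbs m)) r
  | bad => bad

lemma mem_ab {x : ℝ} {a : B} (ha : mem x a) : mem |x| (ab a) := by
  cases a with
  | bad => trivial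
  | mk m r =>
    simp only [ab, mk'_eq, mem, Int.ofNat_eq_natCast, Int.cast_natCast] at *
    rw [Nat.cast_natAbs, Int.cast_abs, ← abs_of_pos U_pos, ← abs_mul]
    exact (abs_abs_sub_abs_le _ _).trans ha

lemma exists_mvt {f g : ℝ → ℝ} {x r t : ℝ} (hd : ∀ t, HasDerivAt f (g t) t) (ht : |t - x| ≤ r) :
    ∃ s, |s - x| ≤ r ∧ |f t - f x| ≤ r * |g s| := by
  have key : ∀ {p q : ℝ}, p ≤ q → ∃ s ∈ Icc p q, f p - f q = g s * (p - q) := fun hpq => by
    obtain ⟨s, hs, e⟩ := dd_mvt hpq fun s _ => hd s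
    exact ⟨s, hs, by rw [← e, dd_mul]⟩
  have h1 := abs_le.1 ht
  rcases le_total t x with h | h
  · obtain ⟨s, hs, e⟩ := key h
    refine ⟨s, abs_le.2 ⟨by linarith [hs.1], by linarith [hs.2]⟩, ?_⟩
    rw [e, abs_mul, mul_comm]
    gcongr
  · obtain ⟨s, hs, e⟩ := key h
    refine ⟨s, abs_le.2 ⟨by linarith [hs.1], by linarith [hs.2]⟩, ?_⟩
    rw [abs_sub_comm, e, abs_mul, mul_comm, abs_sub_comm]
    gcongr

lemma mem_mvt {f g : ℝ → ℝ} {x r : ℝ} {F G R : B} (hd : ∀ t, HasDerivAt f (g t) t)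
    (hF : mem (f x) F) (hG : ∀ t, |t - x| ≤ r → mem (g t) G) (hR : mem r R) :
    ∀ t, |t - x| ≤ r → mem (f t) (F + sym (R * G)) := by
  intro t ht
  obtain ⟨s, hs, e⟩ := exists_mvt hd ht
  refine mem_congr (mem_add hF (mem_sym (y := f t - f x) (mem_mul hR (hG s hs)) ?_)) (by ring)
  rw [abs_mul, abs_of_nonneg ((abs_nonneg _).trans ht)]
  exact e

/-- a priori enclosure for a linear equation of order two -/
def apr (R F G A C D : B) : B :=
  B.seq (ab C * R) fun cr => B.seq (cst 1 1 - R * (ab A + cr)) fun den =>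
    cond (pos den) (G + sym (R * (ab (A * G + C * F + D) + cr * ab G) * inv den)) bad

lemma mem_apr {f g α β γ : ℝ → ℝ} {x r : ℝ} {R F G A C D : B} (hf : ∀ t, HasDerivAt f (g t) t)
    (hg : ∀ t, HasDerivAt g (α t * g t + β t * f t + γ t) t) (hR : mem r R) (hF : mem (f x) F)
    (hG : mem (g x) G) (hA : ∀ t, |t - x| ≤ r → mem (α t) A) (hC : ∀ t, |t - x| ≤ r → mem (β t) C)
    (hD : ∀ t, |t - x| ≤ r → mem (γ t) D) :
    ∀ t, |t - x| ≤ r → mem (g t) (apr R F G A C D) := by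
  intro t ht
  rw [apr, seq_eq, seq_eq]
  refine mem_cond fun hc => ?_
  have r0 : 0 ≤ r := (abs_nonneg _).trans ht
  have gc : Continuous fun s => |g s - g x| :=
    ((continuous_iff_continuousAt.2 fun s => (hg s).continuousAt).sub continuous_const).abs
  obtain ⟨t₀, ht₀, hmax⟩ := (isCompact_closedBall x r).exists_isMaxOn
    ⟨x, Metric.mem_closedBall_self r0⟩ gc.continuousOn
  have hM : ∀ s, |s - x| ≤ r → |g s - g x| ≤ |g t₀ - g x| := fun s hs => hmax hs
  obtain ⟨s, hs, e⟩ := exists_mvt hg (x := x) (t := t₀) ht₀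
  obtain ⟨u, hu, e2⟩ := exists_mvt hf hs
  have k1 := hM s hs
  have k2 := hM u hu
  have k3 := hM t ht
  generalize |g t₀ - g x| = M at *
  have k4 : |g u| ≤ |g x| + M := by
    have := abs_add_le (g x) (g u - g x)
    rw [add_sub_cancel] at this
    linarith
  have k5 : |α s * g s + β s * f s + γ s| ≤
      |α s * g x + β s * f x + γ s| + |α s| * M + |β s| * (r * (|g x| + M)) := by
    have e3 : α s * g s + β s * f s + γ s =
        α s * g x + β s * f x + γ s + α s * (g s - g x) + β s * (f s - f x) := by ring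
    rw [e3]
    refine (abs_add_three _ _ _).trans ?_
    rw [abs_mul, abs_mul]
    gcongr
    exact e2.trans (by gcongr)
  have hcr := mem_mul (mem_ab (hC s hs)) hR
  have hden := mem_sub mem_one (mem_mul hR (mem_add (mem_ab (hA s hs)) hcr))
  have d0 := pos_of_mem hden hc
  refine mem_congr (mem_add hG (mem_sym (y := g t - g x) (mem_mul (mem_mul hR (mem_add
    (mem_ab (mem_add (mem_add (mem_mul (hA s hs) hG) (mem_mul (hC s hs) hF)) (hD s hs)))
    (mem_mul hcr (mem_ab hG)))) (mem_inv hden)) ?_)) (by ring)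
  refine k3.trans (le_trans ?_ (le_abs_self _))
  rw [← div_eq_mul_inv, le_div_iff₀ d0]
  have := e.trans (mul_le_mul_of_nonneg_left k5 r0)
  linarith

/-- enclosures of the special functions -/
structure Box where
  z : B
  h : B
  k : B
  v : B
  h2 : B
  e : B
  b : B
  b1 : B
  b2 : B
  b3 : B
  b4 : B

/-- the box contains the values at `t` -/
structure Box.ok (X : Box) (t : ℝ) : Prop where
  z : mem t X.z
  h : mem (SF.h t) X.h
  k : mem (kap t) X.k
  v : mem (va t) X.v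
  h2 : mem (H2 t) X.h2
  e : mem (E0 t) X.e
  b : mem (SF.b t) X.b
  b1 : mem (SF.b1 t) X.b1
  b2 : mem (SF.b2 t) X.b2
  b3 : mem (SF.b3 t) X.b3
  b4 : mem (SF.b4 t) X.b4

/-- the box of the cell with centre `X` and radius `R`, from the values `H`, `K` of `h`, `κ` -/
def cell (X R H K : B) (w : Int) : Box :=
  B.seq X fun X => B.seq R fun R => B.seq H fun H => B.seq K fun K =>
  B.seq (H * K) fun G1 => B.seq (cst 1 1 - G1) fun V => B.seq (H * (K * K - V)) fun G2 =>
  B.seq (sc 2 1 (G1 * G1) + (H + K) * G2 - sc 2 1 G1) fun G3 =>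
  B.seq (eB X H w) fun E => B.seq (E * inv H) fun C0 => B.seq (cst 1 1 - K * C0) fun C1 =>
  B.seq (C0 + X * C1 - H) fun C2 => B.seq (sc 2 1 C1 + X * C2 - G1) fun C3 =>
  B.seq (sc 3 1 C2 + X * C3 - G2) fun C4 =>
  B.seq (X + sym R) fun Z =>
  B.seq (H + sym (R * (cst 1 2 + sym (cst 1 2))) + (K + sym (R * (-(cst 1 2 + sym (cst 1 2))))))
    fun A =>
  B.seq (apr R H G1 A (cst (-1) 1) (cst 0 1)) fun g1 =>
  B.seq (apr R G2 G3 A (sc 6 1 g1 - cst 3 1) (cst 0 1)) fun g3 =>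
  B.seq (G2 + sym (R * g3)) fun g2 => B.seq (V + sym (R * (-g2))) fun v =>
  B.seq (H + sym (R * (cst 1 1 - v))) fun h => B.seq (K + sym (R * (-v))) fun k =>
  B.seq (E + sym (R * h)) fun e =>
  B.seq (apr R C3 C4 Z (cst 4 1) (-g3)) fun c4 => B.seq (C3 + sym (R * c4)) fun c3 =>
  B.seq (C2 + sym (R * c3)) fun c2 => B.seq (C1 + sym (R * c2)) fun c1 =>
  B.seq (C0 + sym (R * c1)) fun c0 => ⟨Z, h, k, v, g2, e, c0, c1, c2, c3, c4⟩

lemma mem_unit {y : ℝ} (h0 : 0 ≤ y) (h1 : y ≤ 1) : mem y (cst 1 2 + sym (cst 1 2)) := by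
  refine mem_congr (mem_add (mem_cst 1 2) (mem_sym (y := y - 1 / 2) (mem_cst 1 2) ?_)) (by
    push_cast; ring)
  rw [abs_le]
  norm_num
  constructor <;> linarith

/-- the box is valid on the cell -/
def OK (x r : ℝ) (X : Box) : Prop := ∀ t, |t - x| ≤ r → X.ok t

lemma seq_pt {x r y : ℝ} {a : B} {k : B → Box} (ha : mem y a)
    (h : ∀ a', mem y a' → OK x r (k a')) : OK x r (B.seq a k) := by
  rw [seq_eq]; exact h a ha

lemma seq_fn {x r : ℝ} {f : ℝ → ℝ} {a : B} {k : B → Box} (ha : ∀ t, |t - x| ≤ r → mem (f t) a)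
    (h : ∀ a', (∀ t, |t - x| ≤ r → mem (f t) a') → OK x r (k a')) : OK x r (B.seq a k) := by
  rw [seq_eq]; exact h a ha

theorem cell_ok {x r : ℝ} {X R H K : B} (hX : mem x X) (hR : mem r R) (hH : mem (h x) H)
    (hK : mem (kap x) K) (w : ℤ) : OK x r (cell X R H K w) := by
  unfold cell
  refine seq_pt hX fun X hX => seq_pt hR fun R hR => seq_pt hH fun H hH => seq_pt hK fun K hK => ?_
  refine seq_pt (y := 1 - va x) (mem_congr (mem_mul hH hK) (by unfold va; ring)) fun _ G1 => ?_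
  refine seq_pt (y := va x) (mem_congr (mem_sub mem_one G1) (by ring)) fun _ V => ?_
  refine seq_pt (y := H2 x) (mem_congr (mem_mul hH (mem_sub (mem_mul hK hK) V)) (by
    unfold H2; ring)) fun _ G2 => ?_
  refine seq_pt (y := H3 x) (mem_congr (mem_sub (mem_add (mem_sc 2 1 (mem_mul G1 G1))
    (mem_mul (mem_add hH hK) G2)) (mem_sc 2 1 G1)) (by unfold H3; push_cast; ring)) fun _ G3 => ?_
  refine seq_pt (mem_eB hX hH w) fun _ E => ?_
  refine seq_pt (y := b x) (mem_congr (mem_mul E (mem_inv hH)) (by rw [b, div_eq_mul_inv]))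
    fun _ C0 => ?_
  refine seq_pt (y := b1 x) (mem_sub mem_one (mem_mul hK C0)) fun _ C1 => ?_
  refine seq_pt (y := b2 x) (mem_congr (mem_sub (mem_add C0 (mem_mul hX C1)) hH) (b2_eq x).symm)
    fun _ C2 => ?_
  refine seq_pt (y := b3 x) (mem_congr (mem_sub (mem_add (mem_sc 2 1 C1) (mem_mul hX C2)) G1) (by
    rw [b3_eq]; push_cast; ring)) fun _ C3 => ?_
  refine seq_pt (y := b4 x) (mem_congr (mem_sub (mem_add (mem_sc 3 1 C2) (mem_mul hX C3)) G2) (by
    rw [b4]; push_cast; ring)) fun _ C4 => ?_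
  refine seq_fn (f := fun t => t) (fun t ht => mem_congr (mem_add hX
    (mem_sym (y := t - x) hR (ht.trans (le_abs_self r)))) (by ring)) fun _ Z => ?_
  refine seq_fn (f := fun t => h t + kap t) (fun t ht =>
    mem_add (mem_mvt h_hasDerivAt' hH (fun s _ =>
      mem_unit (by linarith [va_lt_one s]) (by linarith [va_pos s])) hR t ht)
    (mem_mvt kap_hasDerivAt hK (fun s _ => mem_neg (mem_unit (va_pos s).le (va_lt_one s).le))
      hR t ht)) fun _ A => ?_
  refine seq_fn (mem_apr (f := h) (g := fun t => 1 - va t) (α := fun t => h t + kap t)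
    (β := fun _ => -1) (γ := fun _ => 0) h_hasDerivAt'
    (fun t => ((va_hasDerivAt' t).const_sub 1).congr_deriv (by rw [H2_eq]; ring)) hR hH G1 A
    (fun _ _ => mem_congr (mem_cst (-1) 1) (by norm_num)) (fun _ _ => mem_zero)) fun _ g1 => ?_
  refine seq_fn (mem_apr (f := H2) (g := H3) (α := fun t => h t + kap t)
    (β := fun t => 3 - 6 * va t) (γ := fun _ => 0) H2_hasDerivAt H3_hasDerivAt hR G2 G3 A
    (fun t ht => mem_congr (mem_sub (mem_sc 6 1 (g1 t ht)) (mem_cst 3 1)) (by push_cast; ring))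
    (fun _ _ => mem_zero)) fun _ g3 => ?_
  refine seq_fn (mem_mvt H2_hasDerivAt G2 g3 hR) fun _ g2 => ?_
  refine seq_fn (mem_mvt va_hasDerivAt' V (fun t ht => mem_neg (g2 t ht)) hR) fun _ v => ?_
  refine seq_fn (mem_mvt h_hasDerivAt' hH (fun t ht => mem_sub mem_one (v t ht)) hR)
    fun _ hh => ?_
  refine seq_fn (mem_mvt kap_hasDerivAt hK (fun t ht => mem_neg (v t ht)) hR) fun _ k => ?_
  refine seq_fn (mem_mvt E0_hasDerivAt E hh hR) fun _ e => ?_
  refine seq_fn (mem_apr (f := b3) (g := b4) (α := fun t => t) (β := fun _ => 4)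
    (γ := fun t => -H3 t) b3_hasDerivAt b4_hasDerivAt hR C3 C4 Z
    (fun _ _ => mem_congr (mem_cst 4 1) (by norm_num)) (fun t ht => mem_neg (g3 t ht)))
    fun _ c4 => ?_
  refine seq_fn (mem_mvt b3_hasDerivAt C3 c4 hR) fun _ c3 => ?_
  refine seq_fn (mem_mvt b2_hasDerivAt C2 c3 hR) fun _ c2 => ?_
  refine seq_fn (mem_mvt b1_hasDerivAt C1 c2 hR) fun _ c1 => ?_
  refine seq_fn (mem_mvt b_hasDerivAt C0 c1 hR) fun _ c0 => ?_
  exact fun t ht => ⟨Z t ht, hh t ht, k t ht, v t ht, g2 t ht, e t ht, c0 t ht, c1 t ht, c2 t ht,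
    c3 t ht, c4 t ht⟩

/-- the box of the cell with centre `p / q` and radius `1 / q` -/
def cellAt (p : Int) (q : Nat) (w : Int) : Box :=
  B.seq (cst p q) fun X => cond (pos (X - cst 7 2))
    (B.seq (cfB X 50 0) fun K => cell X (cst 1 q) (X + K) K w)
    (B.seq (hSer 100 X) fun H => cell X (cst 1 q) H (H - X) w)

theorem cellAt_ok (p : ℤ) (q : ℕ) (w : ℤ) (t : ℝ) (ht : |t - p / q| ≤ 1 / q) :
    (cellAt p q w).ok t := by
  have hX := mem_cst p q
  have hR : mem (1 / q : ℝ) (cst 1 q) := mem_congr (mem_cst 1 q) (by simp)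
  rw [cellAt, seq_eq, seq_eq, seq_eq]
  cases pos (cst p q - cst 7 2)
  · exact cell_ok hX hR (mem_hSer 100 hX) (mem_sub (mem_hSer 100 hX) hX) w t ht
  · have hK : mem (kap (p / q)) _ := mem_congr (mem_cfB hX 50 0) (rr_zero _)
    exact cell_ok hX hR (mem_congr (mem_add hX hK) (h_eq _).symm) hK w t ht

end Vale.Agent.P254.SF
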