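import Vale.Agent.P254Z.SF.Pair

/-!
# P254: lower bounds for the pair kernel by subsolutions of `ψ'' = q ψ`
-/

namespace Vale.Agent.P254.SF

open MeasureTheory Filter Topology Set Real

lemma y1'_hasDerivAt (z : ℝ) : HasDerivAt (fun z => -(kap z / 2) * y1 z) (qq z * y1 z) z := by
  refine ((((kap_hasDerivAt z).div_const 2).neg).mul (y1_hasDerivAt z)).congr_deriv ?_
  simp only [qq, Pi.neg_apply]
  ring

lemma anti_of_deriv {u u' : ℝ → ℝ} {x z : ℝ} (hxz : x ≤ z) (hc : ContinuousOn u (Icc x z))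
    (hd : ∀ t ∈ Ioo x z, HasDerivAt u (u' t) t) (hn : ∀ t ∈ Ioo x z, u' t ≤ 0) : u z ≤ u x := by
  refine antitoneOn_of_deriv_nonpos (convex_Icc x z) hc (fun t ht => ?_) (fun t ht => ?_)
    (left_mem_Icc.2 hxz) (right_mem_Icc.2 hxz) hxz
  · rw [interior_Icc] at ht
    exact (hd t ht).differentiableAt.differentiableWithinAt
  · rw [interior_Icc] at ht
    rw [(hd t ht).deriv]
    exact hn t ht

/-- **Comparison.** -/
theorem compare {ι : Type} [Fintype ι] {P P1 P2 : ι → ℝ → ℝ} {x y : ℝ} (hxy : x ≤ y)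
    (h1 : ∀ j t, HasDerivAt (P j) (P1 j t) t) (h2 : ∀ j t, HasDerivAt (P1 j) (P2 j t) t)
    (h0 : ∀ j, P j y = 0) (h0' : ∀ j, P1 j y = 0)
    (hs : ∀ t, t < y → ∑ j, ((P1 j t + P j t / (y - t)) ^ 2 + P j t * P2 j t - qq t * P j t ^ 2) ≤
      qq t * (y - t) ^ 2) :
    (y - x) ^ 2 + ∑ j, P j x ^ 2 ≤ psi x y ^ 2 := by
  set G : ℝ → ℝ := fun t => (y - t) ^ 2 + ∑ j, P j t ^ 2 with hG
  set A : ℝ → ℝ := fun t => -(y - t) + ∑ j, P j t * P1 j t with hA
  set N : ℝ → ℝ := fun t => ∑ j, P1 j t ^ 2 with hN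
  have dG : ∀ t, HasDerivAt G (2 * A t) t := fun t => by
    refine ((((hasDerivAt_id t).const_sub y).pow 2).add
      (HasDerivAt.fun_sum fun j _ => (h1 j t).pow 2)).congr_deriv ?_
    simp only [hA, id, Nat.cast_ofNat, Nat.add_one_sub_one, pow_one, mul_add, Finset.mul_sum]
    congr 1
    · ring
    · exact Finset.sum_congr rfl fun j _ => by ring
  have dA : ∀ t, HasDerivAt A (1 + N t + ∑ j, P j t * P2 j t) t := fun t => by
    refine (((hasDerivAt_id t).const_sub y).neg.add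
      (HasDerivAt.fun_sum fun j _ => (h1 j t).mul (h2 j t))).congr_deriv ?_
    simp only [hN, Finset.sum_add_distrib, neg_neg, add_assoc, sq]
  have cN : Continuous N := continuous_finsetSum _ fun j _ =>
    (continuous_iff_continuousAt.2 fun t => (h2 j t).continuousAt).pow 2
  have cG : Continuous G := continuous_iff_continuousAt.2 fun t => (dG t).continuousAt
  have G0 : ∀ t, t < y → 0 < G t := fun t ht =>
    add_pos_of_pos_of_nonneg (pow_pos (sub_pos.2 ht) 2) (Finset.sum_nonneg fun _ _ => sq_nonneg _)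
  have N0 : ∀ t, 0 ≤ N t := fun t => Finset.sum_nonneg fun _ _ => sq_nonneg _
  have lag : ∀ t μ, (1 + μ * (y - t)) ^ 2 + ∑ j, (P1 j t - μ * P j t) ^ 2 =
      1 + N t - 2 * μ * A t + μ ^ 2 * G t := fun t μ => by
    have : ∑ j, (P1 j t - μ * P j t) ^ 2 =
        ∑ j, P1 j t ^ 2 - 2 * μ * ∑ j, P j t * P1 j t + μ ^ 2 * ∑ j, P j t ^ 2 := by
      rw [Finset.mul_sum, Finset.mul_sum, ← Finset.sum_sub_distrib, ← Finset.sum_add_distrib]
      exact Finset.sum_congr rfl fun j _ => by ring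
    rw [this]
    simp only [hA, hG, hN]
    ring
  have dg : ∀ t, t < y → HasDerivAt (fun t => √(G t)) (A t / √(G t)) t := fun t ht =>
    ((dG t).sqrt (G0 t ht).ne').congr_deriv (by rw [mul_div_mul_left _ _ two_ne_zero])
  have dψ : ∀ t, HasDerivAt (fun t => psi t y) (-psi1 y t) t := fun t => by
    rw [show (fun t => psi t y) = fun t => -psi y t from funext fun t => psi_swap y t]
    exact (psi_hasDerivAt y t).neg
  set W : ℝ → ℝ := fun t => (-psi1 y t - A t / √(G t)) * y1 t -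
    (psi t y - √(G t)) * (-(kap t / 2) * y1 t) with hW
  have dW : ∀ t, t < y → HasDerivAt W ((qq t * G t ^ 2 -
      ((1 + N t + ∑ j, P j t * P2 j t) * G t - A t ^ 2)) / √(G t) ^ 3 * y1 t) t := fun t ht => by
    have g0 : 0 < √(G t) := sqrt_pos.2 (G0 t ht)
    refine ((((psi1_hasDerivAt y t).neg.sub ((dA t).div (dg t ht) g0.ne')).mul
      (y1_hasDerivAt t)).sub (((dψ t).sub (dg t ht)).mul (y1'_hasDerivAt t))).congr_deriv ?_
    have e := sq_sqrt (G0 t ht).le
    simp only [Pi.sub_apply, Pi.neg_apply, Pi.div_apply]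
    rw [psi_swap t y]
    generalize √(G t) = g at *
    rw [← e]
    field_simp
    ring
  have nW : ∀ t, t < y → 0 ≤ qq t * G t ^ 2 -
      ((1 + N t + ∑ j, P j t * P2 j t) * G t - A t ^ 2) := fun t ht => by
    have τ0 : 0 < y - t := sub_pos.2 ht
    have k1 := lag t (-(y - t)⁻¹)
    have k2 := hs t ht
    rw [Finset.sum_sub_distrib, Finset.sum_add_distrib, ← Finset.mul_sum] at k2
    have k3 : ∑ j, (P1 j t - -(y - t)⁻¹ * P j t) ^ 2 = ∑ j, (P1 j t + P j t / (y - t)) ^ 2 :=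
      Finset.sum_congr rfl fun j _ => by ring
    rw [k3, neg_mul, inv_mul_cancel₀ τ0.ne'] at k1
    have k4 : 1 + N t - 2 * -(y - t)⁻¹ * A t + (-(y - t)⁻¹) ^ 2 * G t + ∑ j, P j t * P2 j t ≤
        qq t * G t := by
      rw [← k1]
      simp only [hG]
      linarith
    have k5 := mul_le_mul_of_nonneg_right k4 (G0 t ht).le
    nlinarith [sq_nonneg (A t + (y - t)⁻¹ * G t)]
  have W0 : ∀ t, t < y → W t ≤ 0 := fun t ht => by
    set Z : ℝ → ℝ := fun s => (-psi1 y s + (1 + N s)) * y1 s -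
      (psi s y - √(G s)) * (-(kap s / 2) * y1 s) with hZ
    have cZ : ContinuousAt Z y :=
      (((psi1_hasDerivAt y y).continuousAt.neg.add (continuousAt_const.add cN.continuousAt)).mul
        (y1_hasDerivAt y).continuousAt).sub
        (((dψ y).continuousAt.sub cG.sqrt.continuousAt).mul (y1'_hasDerivAt y).continuousAt)
    have Z0 : Z y = 0 := by simp [hZ, hG, hN, psi1_self, psi_self, h0, h0']
    have hl : Tendsto Z (𝓝[<] y) (𝓝 0) := Z0 ▸ cZ.tendsto.mono_left nhdsWithin_le_nhds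
    refine ge_of_tendsto hl ?_
    filter_upwards [Ioo_mem_nhdsLT ht] with s hs
    have k1 : W t ≤ W s := le_of_deriv_nonneg hs.1.le (fun r hr => dW r (hr.2.trans_lt hs.2))
      fun r hr => mul_nonneg (div_nonneg (nW r (hr.2.trans_lt hs.2)) (by positivity))
        (y1_pos r).le
    refine k1.trans ?_
    have g0 : 0 < √(G s) := sqrt_pos.2 (G0 s hs.2)
    have e := sq_sqrt (G0 s hs.2).le
    have k2 : -(A s / √(G s)) ≤ 1 + N s := by
      have k3 := lag s (-(√(G s))⁻¹)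
      have k4 : 0 ≤ (1 + -(√(G s))⁻¹ * (y - s)) ^ 2 +
          ∑ j, (P1 j s - -(√(G s))⁻¹ * P j s) ^ 2 := by positivity
      have k5 : (-(√(G s))⁻¹) ^ 2 * G s = 1 := by
        rw [neg_sq, inv_pow, e, inv_mul_cancel₀ (G0 s hs.2).ne']
      rw [k3, k5] at k4
      rw [div_eq_mul_inv]
      linarith [N0 s]
    simp only [hW, hZ]
    have := mul_le_mul_of_nonneg_right k2 (y1_pos s).le
    linarith
  have key := anti_of_deriv (u := fun t => (psi t y - √(G t)) / y1 t)
    (u' := fun t => W t / y1 t ^ 2) hxy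
    ((((continuous_iff_continuousAt.2 fun t => (dψ t).continuousAt).sub cG.sqrt).div
      (continuous_iff_continuousAt.2 fun t => (y1_hasDerivAt t).continuousAt)
      fun t => (y1_pos t).ne').continuousOn)
    (fun t ht => ((dψ t).sub (dg t ht.2)).div (y1_hasDerivAt t) (y1_pos t).ne')
    (fun t ht => div_nonpos_of_nonpos_of_nonneg (W0 t ht.2) (sq_nonneg _))
  have e0 : (psi y y - √(G y)) / y1 y = 0 := by simp [hG, psi_self, h0]
  rw [e0, le_div_iff₀ (y1_pos x), zero_mul, sub_nonneg] at key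
  have := pow_le_pow_left₀ (sqrt_nonneg _) key 2
  rwa [sq_sqrt (by positivity)] at this

/-- `a` lies in the closed convex hull of the values of `f` on `[t, ∞)` -/
def Hul (f : ℝ → ℝ) (t a : ℝ) : Prop :=
  ∀ l r : ℝ, (∀ s, t ≤ s → l ≤ f s ∧ f s ≤ r) → l ≤ a ∧ a ≤ r

lemma taylor_left {F u u1 : ℝ → ℝ} (hF : ∀ s, HasDerivAt F (u s) s)
    (hu : ∀ s, HasDerivAt u (u1 s) s) {t y : ℝ} (h : t < y) :
    ∃ α, Hul u1 t α ∧ F y - F t - (y - t) * u t = (y - t) ^ 2 * α / 2 := by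
  have τ : 0 < (y - t) ^ 2 := pow_pos (sub_pos.2 h) 2
  refine ⟨2 * (F y - F t - (y - t) * u t) / (y - t) ^ 2, fun l r hlr => ?_, by
    have := (sub_pos.2 h).ne'
    field_simp⟩
  have key : ∀ (σ c : ℝ), (∀ s, t ≤ s → c ≤ σ * u1 s) →
      c * (y - t) ^ 2 ≤ σ * (2 * (F y - F t - (y - t) * u t)) := fun σ c hc => by
    have k1 : ∀ s ∈ Icc t y, 0 ≤ σ * (2 * (u s - u t)) - c * (2 * (s - t)) := fun s hs => by
      have := le_of_deriv_nonneg (u := fun s => σ * u s - c * s) (u' := fun s => σ * u1 s - c)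
        hs.1 (fun r _ => (((hu r).const_mul σ).sub ((hasDerivAt_id r).const_mul c)).congr_deriv
          (by ring)) (fun r hr => sub_nonneg.2 (hc r hr.1))
      linarith
    have := le_of_deriv_nonneg
      (u := fun s => σ * (2 * (F s - F t - (s - t) * u t)) - c * (s - t) ^ 2) h.le
      (fun r _ => ((((((hF r).sub_const (F t)).sub
        (((hasDerivAt_id r).sub_const t).mul_const (u t))).const_mul 2).const_mul σ).sub
        ((((hasDerivAt_id r).sub_const t).pow 2).const_mul c)).congr_deriv (by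
          simp only [id, Nat.cast_ofNat, Nat.add_one_sub_one, pow_one]; ring)) k1
    simp only [sub_self] at this
    linarith
  rw [le_div_iff₀ τ, div_le_iff₀ τ]
  exact ⟨by linarith [key 1 l fun s hs => by linarith [(hlr s hs).1]],
    by linarith [key (-1) (-r) fun s hs => by linarith [(hlr s hs).2]]⟩

lemma taylor_right {F u u1 : ℝ → ℝ} (hF : ∀ s, HasDerivAt F (u s) s)
    (hu : ∀ s, HasDerivAt u (u1 s) s) {t y : ℝ} (h : t < y) :
    ∃ β, Hul u1 t β ∧ F t - F y + (y - t) * u y = (y - t) ^ 2 * β / 2 := by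
  have τ : 0 < (y - t) ^ 2 := pow_pos (sub_pos.2 h) 2
  refine ⟨2 * (F t - F y + (y - t) * u y) / (y - t) ^ 2, fun l r hlr => ?_, by
    have := (sub_pos.2 h).ne'
    field_simp⟩
  have key : ∀ (σ c : ℝ), (∀ s, t ≤ s → c ≤ σ * u1 s) →
      c * (y - t) ^ 2 ≤ σ * (2 * (F t - F y + (y - t) * u y)) := fun σ c hc => by
    have := le_of_deriv_nonneg
      (u := fun s => σ * (2 * (F t - F s + (s - t) * u s)) - c * (s - t) ^ 2)
      (u' := fun s => 2 * (s - t) * (σ * u1 s - c)) h.le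
      (fun r _ => ((((((hF r).const_sub (F t)).add
        (((hasDerivAt_id r).sub_const t).mul (hu r))).const_mul 2).const_mul σ).sub
        ((((hasDerivAt_id r).sub_const t).pow 2).const_mul c)).congr_deriv (by
          simp only [id, Nat.cast_ofNat, Nat.add_one_sub_one, pow_one]; ring))
      (fun r hr => mul_nonneg (by linarith [hr.1]) (sub_nonneg.2 (hc r hr.1)))
    simp only [sub_self] at this
    linarith
  rw [le_div_iff₀ τ, div_le_iff₀ τ]
  exact ⟨by linarith [key 1 l fun s hs => by linarith [(hlr s hs).1]],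
    by linarith [key (-1) (-r) fun s hs => by linarith [(hlr s hs).2]]⟩

/-- the local cost of a kernel -/
noncomputable def FF (u1 w1 lam u2 im α β β' : ℝ) : ℝ :=
  (u1 - α / 2 - β' / 2) ^ 2 + (α - β) / 2 * (u1 - w1) +
    (lam * (4 * u1 - α - 2 * β' - β) - u2) ^ 2 * im / 4

/-- a kernel `ω (t) (F[t, y] - u t - w y)`, `F' = u + w` -/
structure Ker where
  FU : ℝ → ℝ
  u : ℝ → ℝ
  u1 : ℝ → ℝ
  u2 : ℝ → ℝ
  FW : ℝ → ℝ
  w : ℝ → ℝ
  w1 : ℝ → ℝ
  om : ℝ → ℝ
  lam : ℝ → ℝ
  lam1 : ℝ → ℝ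
  dFU : ∀ s, HasDerivAt FU (u s) s
  du : ∀ s, HasDerivAt u (u1 s) s
  du1 : ∀ s, HasDerivAt u1 (u2 s) s
  dFW : ∀ s, HasDerivAt FW (w s) s
  dw : ∀ s, HasDerivAt w (w1 s) s
  dom : ∀ s, HasDerivAt om (-(lam s * om s)) s
  dlam : ∀ s, HasDerivAt lam (lam1 s) s

/-- `τ` times the kernel without weight -/
noncomputable def Ker.Q (k : Ker) (y t : ℝ) : ℝ :=
  k.FU y + k.FW y - (k.FU t + k.FW t) - (y - t) * (k.u t + k.w y)

/-- its derivative -/
noncomputable def Ker.Q1 (k : Ker) (y t : ℝ) : ℝ := k.w y - k.w t - (y - t) * k.u1 t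

/-- its second derivative -/
noncomputable def Ker.Q2 (k : Ker) (y t : ℝ) : ℝ := k.u1 t - k.w1 t - (y - t) * k.u2 t

lemma Ker.dQ (k : Ker) (y t : ℝ) : HasDerivAt (k.Q y) (k.Q1 y t) t := by
  refine ((((k.dFU t).add (k.dFW t)).const_sub (k.FU y + k.FW y)).sub
    (((hasDerivAt_id t).const_sub y).mul ((k.du t).add_const (k.w y)))).congr_deriv ?_
  simp only [Ker.Q1, id]
  ring

lemma Ker.dQ1 (k : Ker) (y t : ℝ) : HasDerivAt (k.Q1 y) (k.Q2 y t) t := by
  refine (((k.dw t).const_sub (k.w y)).sub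
    (((hasDerivAt_id t).const_sub y).mul (k.du1 t))).congr_deriv ?_
  simp only [Ker.Q2, id]
  ring

/-- `q - 2 λ² + λ'` -/
noncomputable def Ker.mu (k : Ker) (t : ℝ) : ℝ := qq t - 2 * k.lam t ^ 2 + k.lam1 t

/-- **The pair bound from a one-variable condition.** -/
theorem pair_of {ι : Type} [Fintype ι] (k : ι → Ker) {x y : ℝ} (hxy : x < y)
    (hmu : ∀ j t, 0 < (k j).mu t)
    (hc : ∀ t, t < y → ∀ α β β' : ι → ℝ, (∀ j, Hul (k j).u1 t (α j)) →
      (∀ j, Hul (k j).w1 t (β j)) → (∀ j, Hul (k j).w1 t (β' j)) →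
      ∑ j, (k j).om t ^ 2 * FF ((k j).u1 t) ((k j).w1 t) ((k j).lam t) ((k j).u2 t)
        ((k j).mu t)⁻¹ (α j) (β j) (β' j) ≤ qq t) :
    ∑ j, (k j).om x ^ 2 * ((k j).Q y x / (y - x)) ^ 2 ≤ rho x y - 1 := by
  have key := compare (P := fun j t => (k j).om t * (k j).Q y t)
    (P1 := fun j t => (k j).om t * ((k j).Q1 y t - (k j).lam t * (k j).Q y t))
    (P2 := fun j t => (k j).om t * ((k j).Q2 y t - 2 * (k j).lam t * (k j).Q1 y t +
      ((k j).lam t ^ 2 - (k j).lam1 t) * (k j).Q y t)) hxy.le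
    (fun j t => (((k j).dom t).mul ((k j).dQ y t)).congr_deriv (by ring))
    (fun j t => (((k j).dom t).mul (((k j).dQ1 y t).sub
      (((k j).dlam t).mul ((k j).dQ y t)))).congr_deriv (by
        simp only [Pi.sub_apply, Pi.mul_apply]; ring))
    (fun j => by simp [Ker.Q]) (fun j => by simp [Ker.Q, Ker.Q1]) fun t ht => ?_
  · have τ : 0 < (y - x) ^ 2 := pow_pos (sub_pos.2 hxy) 2
    rw [← rho_mul] at key
    refine le_of_mul_le_mul_right ?_ τ
    rw [Finset.sum_mul]
    have : ∀ j, (k j).om x ^ 2 * ((k j).Q y x / (y - x)) ^ 2 * (y - x) ^ 2 =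
        ((k j).om x * (k j).Q y x) ^ 2 := fun j => by
      have := (sub_pos.2 hxy).ne'
      field_simp
    simp only [this]
    linarith
  · choose α hα eα using fun j => taylor_left (k j).dFU (k j).du ht
    choose β hβ eβ using fun j => taylor_right (k j).dFW (k j).dw ht
    choose β' hβ' eβ' using fun j => taylor_left (k j).dFW (k j).dw ht
    have τ : 0 < y - t := sub_pos.2 ht
    refine le_trans ?_ (mul_le_mul_of_nonneg_right (hc t ht α β β' hα hβ hβ') (sq_nonneg _))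
    rw [Finset.sum_mul]
    refine Finset.sum_le_sum fun j _ => ?_
    have e1 : (k j).Q y t = (y - t) ^ 2 * (α j - β j) / 2 := by
      unfold Ker.Q; linear_combination eα j - eβ j
    have e2 : (k j).Q1 y t = (y - t) * ((β j + β' j) / 2 - (k j).u1 t) := by
      refine mul_left_cancel₀ τ.ne' ?_
      unfold Ker.Q1; linear_combination eβ j + eβ' j
    have m0 := hmu j t
    have e3 : qq t = (k j).mu t + 2 * (k j).lam t ^ 2 - (k j).lam1 t := by unfold Ker.mu; ring
    rw [e1, e2, e3, Ker.Q2, FF, ← sub_nonneg]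
    generalize y - t = d at *
    generalize (k j).mu t = μ at *
    refine le_trans (b := (k j).om t ^ 2 * d ^ 2 * μ * (d * (α j - β j) / 2 -
      ((k j).lam t * (4 * (k j).u1 t - α j - 2 * β' j - β j) - (k j).u2 t) / (2 * μ)) ^ 2)
      (by positivity) (le_of_eq ?_)
    field_simp
    ring

end Vale.Agent.P254.SF
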