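import Mathlib

/-!
# Ball arithmetic in fixed point (unit `2 ^ (-100)`), for evaluation by the kernel
-/

namespace Vale.Agent.P254.SF

/-- a ball with centre `m / 2 ^ 100` and radius `r / 2 ^ 100`, or no information -/
inductive B
  | mk (m : Int) (r : Nat)
  | bad

namespace B

/-- forces the evaluation of a natural number -/
def frc (n : Nat) (k : Nat → B) : B :=
  match n with
  | 0 => k 0
  | n + 1 => k (Nat.succ n)

/-- `mk`, with evaluated arguments -/
def mk' (m : Int) (r : Nat) : B :=
  match m with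
  | Int.ofNat n => frc n fun n => frc r fun r => mk (Int.ofNat n) r
  | Int.negSucc n => frc n fun n => frc r fun r => mk (Int.negSucc n) r

lemma frc_eq (n : Nat) (k : Nat → B) : frc n k = k n := by cases n <;> rfl

lemma mk'_eq (m : Int) (r : Nat) : mk' m r = mk m r := by
  cases m <;> simp only [mk', frc_eq]

/-- forces the evaluation of a ball -/
def seq {α : Type} (a : B) (k : B → α) : α :=
  match a with
  | mk m r => k (mk m r)
  | bad => k bad

lemma seq_eq {α : Type} (a : B) (k : B → α) : seq a k = k a := by cases a <;> rfl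

/-- the unit -/
noncomputable def U : ℝ := 2 ^ 100

lemma U_pos : 0 < U := by unfold U; positivity

/-- membership -/
def mem (x : ℝ) : B → Prop
  | mk m r => |x * U - m| ≤ r
  | bad => True

def add : B → B → B
  | mk m r, mk n s => mk' (Int.add m n) (Nat.add r s)
  | _, _ => bad

def sub : B → B → B
  | mk m r, mk n s => mk' (Int.sub m n) (Nat.add r s)
  | _, _ => bad

def neg : B → B
  | mk m r => mk' (Int.neg m) r
  | bad => bad

def mul : B → B → B
  | mk m r, mk n s => mk' (Int.shiftRight (Int.mul m n) 100)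
      (Nat.add (Nat.shiftRight (Nat.add (Nat.mul (Int.natAbs m) s)
        (Nat.mul (Nat.add (Int.natAbs n) s) r)) 100) 2)
  | _, _ => bad

/-- multiplication by the rational `p / q` -/
def sc (p : Int) (q : Nat) : B → B
  | mk m r => mk' (Int.ediv (Int.mul p m) (Int.ofNat q))
      (Nat.add (Nat.div (Nat.mul (Int.natAbs p) r) q) 2)
  | bad => bad

/-- the rational `p / q` -/
def cst (p : Int) (q : Nat) : B := mk' (Int.ediv (Int.mul p (Int.ofNat (Nat.shiftLeft 1 100)))
  (Int.ofNat q)) 1

/-- the inverse of a positive ball -/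
def inv : B → B
  | mk (Int.ofNat m) r => cond (Nat.blt r m)
      (frc (Nat.mul (Nat.add m r) (Nat.sub m r)) fun d =>
        mk' (Int.ofNat (Nat.div (Nat.shiftLeft m 200) d))
        (Nat.add (Nat.div (Nat.shiftLeft r 200) d) 2)) bad
  | _ => bad

/-- the symmetric ball which contains `a` -/
def sym : B → B
  | mk m r => mk' (Int.ofNat 0) (Nat.add (Int.natAbs m) r)
  | bad => bad

/-- the point ball at the upper bound of the absolute value -/
def mag : B → B
  | mk m r => mk' (Int.ofNat (Nat.add (Int.natAbs m) r)) 0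
  | bad => bad

/-- the point ball at the upper bound -/
def hi : B → B
  | mk m r => mk' (Int.add m (Int.ofNat r)) 0
  | bad => bad

/-- the point ball at the lower bound -/
def lo : B → B
  | mk m r => mk' (Int.sub m (Int.ofNat r)) 0
  | bad => bad

/-- the value of the centre -/
noncomputable def val : B → ℝ
  | mk m _ => m / U
  | bad => 0

/-- a ball which contains both -/
def hull : B → B → B
  | mk m r, mk n s =>
      let a := min (Int.sub m (Int.ofNat r)) (Int.sub n (Int.ofNat s))
      let c := max (Int.add m (Int.ofNat r)) (Int.add n (Int.ofNat s))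
      mk' (Int.shiftRight (Int.add a c) 1)
        (Nat.add (Nat.shiftRight (Int.natAbs (Int.sub c a)) 1) 2)
  | _, _ => bad

/-- all the points are positive -/
def pos : B → Bool
  | mk (Int.ofNat m) r => Nat.blt r m
  | _ => false

instance : Add B := ⟨add⟩
instance : Sub B := ⟨sub⟩
instance : Neg B := ⟨neg⟩
instance : Mul B := ⟨mul⟩

variable {x y : ℝ} {a b : B}

lemma mem_add (ha : mem x a) (hb : mem y b) : mem (x + y) (a + b) := by
  change mem _ (add a b)
  cases a <;> cases b <;> simp only [add, mk'_eq, mem] at *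
  rw [abs_le] at *
  simp only [Int.add_def, Nat.add_eq]
  push_cast
  constructor <;> linarith [ha.1, ha.2, hb.1, hb.2]

lemma mem_sub (ha : mem x a) (hb : mem y b) : mem (x - y) (a - b) := by
  change mem _ (sub a b)
  cases a with
  | bad => trivial
  | mk m r =>
    cases b with
    | bad => trivial
    | mk n s =>
      simp only [sub, mk'_eq, mem] at *
      rw [abs_le] at *
      rw [show Int.sub m n = m - n from rfl, Nat.add_eq]
      push_cast
      constructor <;> linarith [ha.1, ha.2, hb.1, hb.2]

lemma mem_neg (ha : mem x a) : mem (-x) (-a) := by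
  change mem _ (neg a)
  cases a with
  | bad => trivial
  | mk m r =>
    simp only [neg, mk'_eq, mem] at *
    rw [show Int.neg m = -m from rfl]
    push_cast
    rw [← abs_neg]
    refine le_trans (le_of_eq ?_) ha
    congr 1
    ring

lemma ediv_near (m : ℤ) {q : ℕ} (hq : 0 < q) : |(m : ℝ) / q - (m / (q : ℤ) : ℤ)| ≤ 1 := by
  have h1 := Int.mul_ediv_add_emod m q
  have h2 := Int.emod_nonneg m (b := q) (by exact_mod_cast hq.ne')
  have h3 := Int.emod_lt_of_pos m (b := q) (by exact_mod_cast hq)
  have q0 : (0 : ℝ) < q := by exact_mod_cast hq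
  have e : (m : ℝ) / q - (m / (q : ℤ) : ℤ) = (m % q : ℤ) / q := by
    have : (m : ℝ) = q * (m / (q : ℤ) : ℤ) + (m % q : ℤ) := by exact_mod_cast h1.symm
    rw [eq_div_iff q0.ne', sub_mul, div_mul_cancel₀ _ q0.ne']
    linarith
  rw [e, abs_of_nonneg (div_nonneg (by exact_mod_cast h2) q0.le), div_le_one q0]
  exact_mod_cast h3.le

lemma div_near (m : ℕ) {q : ℕ} (hq : 0 < q) : (m : ℝ) / q ≤ (m / q : ℕ) + 1 := by
  have := (abs_le.1 (ediv_near m hq)).2
  rw [← Int.natCast_div, Int.cast_natCast, Int.cast_natCast] at this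
  linarith

lemma U_eq : U = ((2 ^ 100 : ℕ) : ℝ) := by unfold U; norm_num

lemma mem_mul (ha : mem x a) (hb : mem y b) : mem (x * y) (a * b) := by
  change mem _ (mul a b)
  cases a with
  | bad => trivial
  | mk m r =>
    cases b with
    | bad => trivial
    | mk n s =>
      simp only [mul, mk'_eq, mem] at *
      have e1 : Int.shiftRight (Int.mul m n) 100 = m * n / ((2 ^ 100 : ℕ) : ℤ) :=
        Int.shiftRight_eq_div_pow (m * n) 100
      have e2 : Nat.add (Nat.shiftRight (Nat.add (Nat.mul (Int.natAbs m) s)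
          (Nat.mul (Nat.add (Int.natAbs n) s) r)) 100) 2 =
          (m.natAbs * s + (n.natAbs + s) * r) / 2 ^ 100 + 2 :=
        congrArg (· + 2) (Nat.shiftRight_eq_div_pow _ 100)
      rw [e1, e2]
      have h1 := ediv_near (m * n) (q := 2 ^ 100) (by positivity)
      have h2 := div_near (m.natAbs * s + (n.natAbs + s) * r) (q := 2 ^ 100) (by positivity)
      rw [← U_eq] at h1 h2
      have hU := U_pos
      have h3 : |x * y * U - (m * n : ℤ) / U| ≤ (m.natAbs * s + (n.natAbs + s) * r : ℕ) / U := by
        rw [le_div_iff₀ hU, ← abs_of_pos hU, ← abs_mul, abs_of_pos hU]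
        have e : (x * y * U - (m * n : ℤ) / U) * U =
            m * (y * U - n) + (n + (y * U - n)) * (x * U - m) := by
          push_cast; field_simp; ring
        rw [e]
        refine (abs_add_le _ _).trans ?_
        rw [abs_mul, abs_mul]
        push_cast
        rw [Nat.cast_natAbs, Nat.cast_natAbs, Int.cast_abs, Int.cast_abs]
        gcongr
        exact (abs_add_le _ _).trans (by gcongr)
      have := abs_sub_le (x * y * U) ((m * n : ℤ) / U) ((m * n / ((2 ^ 100 : ℕ) : ℤ) : ℤ) : ℝ)
      rw [Nat.cast_add ((m.natAbs * s + (n.natAbs + s) * r) / 2 ^ 100) 2]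
      norm_num at *
      linarith

lemma mem_sc (p : ℤ) (q : ℕ) (ha : mem x a) : mem ((p : ℝ) / q * x) (sc p q a) := by
  cases a with
  | bad => trivial
  | mk m r =>
    simp only [sc, mk'_eq, mem] at *
    rw [show Int.ediv (Int.mul p m) (Int.ofNat q) = p * m / (q : ℤ) from rfl,
      show Nat.add (Nat.div (Nat.mul (Int.natAbs p) r) q) 2 = p.natAbs * r / q + 2 from rfl]
    rcases Nat.eq_zero_or_pos q with rfl | hq
    · simp
    have h1 := ediv_near (p * m) hq
    have h2 := div_near (p.natAbs * r) hq
    have q0 : (0 : ℝ) < q := by exact_mod_cast hq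
    have h3 : |(p : ℝ) / q * x * U - (p * m : ℤ) / q| ≤ (p.natAbs * r : ℕ) / q := by
      have e : (p : ℝ) / q * x * U - (p * m : ℤ) / q = p * (x * U - m) / q := by
        push_cast; field_simp
      rw [e, abs_div, abs_mul, abs_of_pos q0]
      push_cast
      rw [Nat.cast_natAbs, Int.cast_abs]
      gcongr
    have := abs_sub_le ((p : ℝ) / q * x * U) ((p * m : ℤ) / q) ((p * m / (q : ℤ) : ℤ) : ℝ)
    rw [Nat.cast_add (p.natAbs * r / q) 2]
    push_cast at *
    linarith

lemma mem_cst (p : ℤ) (q : ℕ) : mem ((p : ℝ) / q) (cst p q) := by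
  simp only [cst, mk'_eq, mem]
  rw [show Int.ediv (Int.mul p (Int.ofNat (Nat.shiftLeft 1 100))) (Int.ofNat q) =
    p * ((2 ^ 100 : ℕ) : ℤ) / (q : ℤ) from rfl]
  rcases Nat.eq_zero_or_pos q with rfl | hq
  · simp
  have h1 := ediv_near (p * ((2 ^ 100 : ℕ) : ℤ)) hq
  rw [U_eq]
  refine le_trans (le_of_eq ?_) (h1.trans (by norm_num))
  congr 2
  push_cast
  ring

lemma pos_of_mem (ha : mem x a) (h : pos a = true) : 0 < x := by
  rcases a with ⟨m | m, r⟩ | _
  · simp only [pos, Nat.blt_eq, mem, Int.ofNat_eq_natCast, Int.cast_natCast] at *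
    have h1 : (r : ℝ) < m := by exact_mod_cast h
    exact pos_of_mul_pos_left (b := U) (by linarith [(abs_le.1 ha).1]) U_pos.le
  · simp [pos] at h
  · simp [pos] at h

lemma mem_inv (ha : mem x a) : mem x⁻¹ (inv a) := by
  rcases a with ⟨m | m, r⟩ | _
  · simp only [inv]
    cases h : Nat.blt r m
    · trivial
    simp only [cond_true, mk'_eq, frc_eq, mem, Int.ofNat_eq_natCast, Int.cast_natCast] at *
    rw [Nat.blt_eq] at h
    rw [show Nat.mul (Nat.add m r) (Nat.sub m r) = (m + r) * (m - r) from rfl]
    have hd : 0 < (m + r) * (m - r) := Nat.mul_pos (by omega) (by omega)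
    have ed : (((m + r) * (m - r) : ℕ) : ℝ) = (m + r) * (m - r) := by
      rw [Nat.cast_mul, Nat.cast_sub h.le, Nat.cast_add]
    generalize (m + r) * (m - r) = d at *
    rw [show Nat.div (Nat.shiftLeft m 200) d = m <<< 200 / d from rfl,
      show Nat.add (Nat.div (Nat.shiftLeft r 200) d) 2 = r <<< 200 / d + 2 from rfl,
      Nat.shiftLeft_eq, Nat.shiftLeft_eq]
    have h1 := ediv_near ((m * 2 ^ 200 : ℕ) : ℤ) hd
    rw [← Int.natCast_div, Int.cast_natCast, Int.cast_natCast] at h1
    have h2 := div_near (r * 2 ^ 200) hd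
    have e : ((2 ^ 200 : ℕ) : ℝ) = U ^ 2 := by unfold U; norm_num
    rw [Nat.cast_mul, e] at h1 h2
    have hU := U_pos
    have r1 : (r : ℝ) < m := by exact_mod_cast h
    have r0 : (0 : ℝ) ≤ r := Nat.cast_nonneg r
    have hx : (m : ℝ) - r ≤ x * U := by linarith [(abs_le.1 ha).1]
    have hx' : x * U ≤ m + r := by linarith [(abs_le.1 ha).2]
    have x0 : 0 < x * U := by linarith
    have h3 : |x⁻¹ * U - m * U ^ 2 / d| ≤ r * U ^ 2 / d := by
      have p1 : 0 < (m : ℝ) - r := by linarith
      have p2 : 0 < (m : ℝ) + r := by linarith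
      have e1 : x⁻¹ * U = U ^ 2 / (x * U) := by field_simp
      have k1 : U ^ 2 / (x * U) ≤ U ^ 2 / (m - r) := by gcongr
      have k2 : U ^ 2 / (m + r) ≤ U ^ 2 / (x * U) := by gcongr
      have e2 : U ^ 2 / (m - r) = m * U ^ 2 / d + r * U ^ 2 / d := by rw [ed]; field_simp
      have e3 : U ^ 2 / (m + r) = m * U ^ 2 / d - r * U ^ 2 / d := by rw [ed]; field_simp
      rw [e1, abs_le]
      constructor <;> linarith
    have := abs_sub_le (x⁻¹ * U) (m * U ^ 2 / d) ((m * 2 ^ 200 / d : ℕ) : ℝ)
    rw [Nat.cast_add (r * 2 ^ 200 / d) 2]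
    push_cast
    linarith
  · trivial
  · trivial

lemma mem_sym (ha : mem x a) (h : |y| ≤ |x|) : mem y (sym a) := by
  cases a with
  | bad => trivial
  | mk m r =>
    simp only [sym, mk'_eq, mem, Nat.add_eq, Int.ofNat_eq_natCast, Nat.cast_zero, Int.cast_zero,
      sub_zero, Nat.cast_add, Nat.cast_natAbs, Int.cast_abs] at *
    have h1 : |y * U| ≤ |x * U| := by rw [abs_mul, abs_mul]; gcongr
    have := abs_add_le (m : ℝ) (x * U - m)
    rw [add_sub_cancel] at this
    linarith

/-- the value of a point ball belongs to it -/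
lemma mem_val_mag (a : B) : mem (val (mag a)) (mag a) := by
  cases a with
  | bad => trivial
  | mk m r => simp [mag, mk'_eq, mem, val, div_mul_cancel₀ _ U_pos.ne']

lemma mem_val_hi (a : B) : mem (val (hi a)) (hi a) := by
  cases a with
  | bad => trivial
  | mk m r => simp [hi, mk'_eq, mem, val, div_mul_cancel₀ _ U_pos.ne']

lemma mem_val_lo (a : B) : mem (val (lo a)) (lo a) := by
  cases a with
  | bad => trivial
  | mk m r => simp [lo, mk'_eq, mem, val, div_mul_cancel₀ _ U_pos.ne']

lemma le_mag (ha : mem x a) (h : a ≠ bad) : |x| ≤ val (mag a) := by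
  cases a with
  | bad => exact absurd rfl h
  | mk m r =>
    simp only [mag, mk'_eq, mem, val, Nat.add_eq, Int.ofNat_eq_natCast, Int.cast_natCast] at *
    rw [le_div_iff₀ U_pos, ← abs_of_pos U_pos, ← abs_mul, Nat.cast_add, Nat.cast_natAbs,
      Int.cast_abs]
    have := abs_add_le (m : ℝ) (x * U - m)
    rw [add_sub_cancel] at this
    linarith

lemma le_hi (ha : mem x a) (h : a ≠ bad) : x ≤ val (hi a) := by
  cases a with
  | bad => exact absurd rfl h
  | mk m r =>
    simp only [hi, mk'_eq, mem, val, Int.ofNat_eq_natCast, Int.add_def, Int.cast_add,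
      Int.cast_natCast] at *
    rw [le_div_iff₀ U_pos]
    linarith [(abs_le.1 ha).2]

lemma lo_le (ha : mem x a) (h : a ≠ bad) : val (lo a) ≤ x := by
  cases a with
  | bad => exact absurd rfl h
  | mk m r =>
    simp only [lo, mk'_eq, mem, val] at *
    rw [show Int.sub m (Int.ofNat r) = m - r from rfl, div_le_iff₀ U_pos]
    push_cast
    linarith [(abs_le.1 ha).1]

/-- balls are convex -/
lemma mem_between {z : ℝ} (hx : mem x a) (hy : mem y a) (h1 : x ≤ z) (h2 : z ≤ y) : mem z a := by
  cases a with
  | bad => trivial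
  | mk m r =>
    simp only [mem, abs_le] at *
    have := U_pos
    constructor <;> nlinarith [hx.1, hy.2]

lemma mem_hull {z : ℝ} (hx : mem x a) (hy : mem y b) (h1 : min x y ≤ z) (h2 : z ≤ max x y) :
    mem z (hull a b) := by
  cases a with
  | bad => trivial
  | mk m r =>
    cases b with
    | bad => trivial
    | mk n s =>
      simp only [hull, mk'_eq, mem] at *
      rw [show Int.sub m (Int.ofNat r) = m - r from rfl,
        show Int.sub n (Int.ofNat s) = n - s from rfl,
        show Int.add m (Int.ofNat r) = m + r from rfl,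
        show Int.add n (Int.ofNat s) = n + s from rfl]
      have hU := U_pos
      have k1 : ((min (m - r) (n - s) : ℤ) : ℝ) ≤ z * U := by
        push_cast
        rcases min_le_iff.1 h1 with h | h
        · exact (min_le_left _ _).trans (by nlinarith [(abs_le.1 hx).1])
        · exact (min_le_right _ _).trans (by nlinarith [(abs_le.1 hy).1])
      have k2 : z * U ≤ ((max (m + r) (n + s) : ℤ) : ℝ) := by
        push_cast
        rcases le_max_iff.1 h2 with h | h
        · exact le_trans (by nlinarith [(abs_le.1 hx).2]) (le_max_left _ _)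
        · exact le_trans (by nlinarith [(abs_le.1 hy).2]) (le_max_right _ _)
      generalize min (m - r) (n - s) = p at *
      generalize max (m + r) (n + s) = q at *
      have e1 : Int.shiftRight (Int.add p q) 1 = (p + q) / 2 :=
        Int.shiftRight_eq_div_pow (p + q) 1
      have e2 : Nat.add (Nat.shiftRight (Int.natAbs (Int.sub q p)) 1) 2 =
          (q - p).natAbs / 2 + 2 := congrArg (· + 2) (Nat.shiftRight_eq_div_pow _ 1)
      rw [e1, e2]
      have pq : p ≤ q := by exact_mod_cast k1.trans k2
      have k3 : (p + q) / 2 - ((q - p).natAbs / 2 + 2 : ℕ) ≤ p := by omega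
      have k4 : q ≤ (p + q) / 2 + ((q - p).natAbs / 2 + 2 : ℕ) := by omega
      generalize (p + q) / 2 = c at *
      generalize (q - p).natAbs / 2 + 2 = d at *
      have k3' : (c : ℝ) - d ≤ p := by exact_mod_cast k3
      have k4' : (q : ℝ) ≤ c + d := by exact_mod_cast k4
      rw [abs_le]
      constructor <;> linarith

lemma mem_congr (ha : mem x a) (h : x = y) : mem y a := h ▸ ha

end B

end Vale.Agent.P254.SF
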