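import Mathlib

/-!
# P254: the hazard function of the Gaussian, definitions and first inequalities
-/

namespace Vale.Agent.P254.SF

open MeasureTheory Filter Topology Set Real

/-- the unnormalised Gaussian density -/
noncomputable def ph (z : ℝ) : ℝ := exp (-z ^ 2 / 2)

/-- the unnormalised Gaussian tail -/
noncomputable def J (z : ℝ) : ℝ := ∫ t in Ioi z, ph t

/-- the hazard function -/
noncomputable def h (z : ℝ) : ℝ := ph z / J z

/-- the mean residual life -/
noncomputable def kap (z : ℝ) : ℝ := h z - z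

/-- the variance of the truncated Gaussian, `1 - h'` -/
noncomputable def va (z : ℝ) : ℝ := 1 - h z * kap z

/-- the cumulative hazard -/
noncomputable def E0 (z : ℝ) : ℝ := -log (J z / √(2 * π))

/-- `b = E0 / h` -/
noncomputable def b (z : ℝ) : ℝ := E0 z / h z

/-- `b'` -/
noncomputable def b1 (z : ℝ) : ℝ := 1 - kap z * b z

/-- `b''` -/
noncomputable def b2 (z : ℝ) : ℝ := (1 - z * kap z) * b z - kap z

lemma ph_pos (z : ℝ) : 0 < ph z := exp_pos _

lemma ph_hasDerivAt (z : ℝ) : HasDerivAt ph (-z * ph z) z := by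
  have := (((hasDerivAt_id z).pow 2).neg.div_const 2).exp
  refine this.congr_deriv ?_
  simp only [ph, id, Nat.cast_ofNat, Nat.add_one_sub_one, pow_one, Pi.neg_apply, Pi.pow_apply]
  ring

lemma ph_continuous : Continuous ph := by unfold ph; fun_prop

lemma ph_eq : ph = fun x => exp (-(1 / 2) * x ^ 2) := by
  funext x; unfold ph; congr 1; ring

lemma ph_integrable : Integrable ph := by
  rw [ph_eq]; exact integrable_exp_neg_mul_sq (by norm_num)

lemma ph_integral : ∫ t, ph t = √(2 * π) := by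
  rw [ph_eq, integral_gaussian]; congr 1; ring

lemma ph_neg (z : ℝ) : ph (-z) = ph z := by simp [ph]

lemma ph_tendsto_atTop : Tendsto ph atTop (𝓝 0) := by
  refine tendsto_exp_atBot.comp ?_
  refine Tendsto.atBot_div_const two_pos (tendsto_neg_atTop_atBot.comp ?_)
  exact tendsto_pow_atTop two_ne_zero

lemma ph_tendsto_atBot : Tendsto ph atBot (𝓝 0) :=
  (ph_tendsto_atTop.comp tendsto_neg_atBot_atTop).congr ph_neg

lemma J_sub (x y : ℝ) : J x - J y = ∫ t in x..y, ph t :=
  intervalIntegral.integral_Ioi_sub_Ioi' ph_integrable.integrableOn ph_integrable.integrableOn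

lemma J_hasDerivAt (z : ℝ) : HasDerivAt J (-ph z) z := by
  have e : J = fun z => J 0 - ∫ t in (0 : ℝ)..z, ph t := by
    funext z; rw [← J_sub]; ring
  rw [e]
  exact (ph_continuous.deriv_integral ph 0 z ▸
    (intervalIntegral.integral_hasDerivAt_right (ph_continuous.intervalIntegrable _ _)
      (ph_continuous.stronglyMeasurableAtFilter _ _) ph_continuous.continuousAt).differentiableAt.hasDerivAt).const_sub _

lemma J_tendsto_atTop : Tendsto J atTop (𝓝 0) := tendsto_integral_Ioi_zero tendsto_id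

lemma J_tendsto_atBot : Tendsto J atBot (𝓝 √(2 * π)) := by
  have h1 : Tendsto (fun z => ∫ t in Iic z, ph t) atBot (𝓝 0) := tendsto_integral_Iic_zero tendsto_id
  have h2 := h1.const_sub √(2 * π)
  rw [sub_zero] at h2
  refine h2.congr fun z => ?_
  rw [← ph_integral, ← intervalIntegral.integral_Iic_add_Ioi (b := z) ph_integrable.integrableOn
    ph_integrable.integrableOn, J]
  ring

/-- A function which decreases to zero is positive. -/
lemma pos_of_anti {u u' : ℝ → ℝ} {z : ℝ} (hd : ∀ x, z ≤ x → HasDerivAt u (u' x) x)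
    (hn : ∀ x, z < x → u' x < 0) (hl : Tendsto u atTop (𝓝 0)) : 0 < u z := by
  have ha : StrictAntiOn u (Ici z) :=
    strictAntiOn_of_deriv_neg (convex_Ici z)
      (fun x hx => (hd x hx).continuousAt.continuousWithinAt) fun x hx => by
        rw [interior_Ici] at hx
        rw [(hd x (le_of_lt hx)).deriv]
        exact hn x hx
  have h1 : u (z + 1) < u z := ha self_mem_Ici (by simp) (by linarith)
  have h2 : 0 ≤ u (z + 1) := le_of_tendsto hl ((eventually_ge_atTop (z + 1)).mono fun x hx =>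
    ha.antitoneOn (by simp) (show z ≤ x by linarith) hx)
  linarith

/-- A function which increases from zero is positive. -/
lemma pos_of_mono {u u' : ℝ → ℝ} {z : ℝ} (hd : ∀ x, x ≤ z → HasDerivAt u (u' x) x)
    (hn : ∀ x, x < z → 0 < u' x) (hl : Tendsto u atBot (𝓝 0)) : 0 < u z := by
  have := pos_of_anti (u := fun x => u (-x)) (u' := fun x => -u' (-x)) (z := -z)
    (fun x hx => ((hd (-x) (by linarith)).comp x (hasDerivAt_neg x)).congr_deriv (by ring))
    (fun x hx => by linarith [hn (-x) (by linarith)]) (hl.comp tendsto_neg_atTop_atBot)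
  simpa using this

lemma J_pos (z : ℝ) : 0 < J z :=
  pos_of_anti (fun x _ => J_hasDerivAt x) (fun x _ => by linarith [ph_pos x]) J_tendsto_atTop

lemma J_lt (z : ℝ) : J z < √(2 * π) := by
  have h1 := J_tendsto_atBot.const_sub √(2 * π)
  rw [sub_self] at h1
  have := pos_of_mono (u := fun x => √(2 * π) - J x) (u' := fun x => ph x) (z := z)
    (fun x _ => by simpa using (J_hasDerivAt x).const_sub √(2 * π)) (fun x _ => ph_pos x) h1
  linarith

lemma h_pos (z : ℝ) : 0 < h z := div_pos (ph_pos z) (J_pos z)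

lemma h_hasDerivAt (z : ℝ) : HasDerivAt h (h z * kap z) z := by
  refine ((ph_hasDerivAt z).div (J_hasDerivAt z) (J_pos z).ne').congr_deriv ?_
  have := (J_pos z).ne'
  unfold kap h
  field_simp
  ring

lemma h_continuous : Continuous h :=
  continuous_iff_continuousAt.2 fun z => (h_hasDerivAt z).continuousAt

lemma kap_hasDerivAt (z : ℝ) : HasDerivAt kap (-va z) z := by
  refine ((h_hasDerivAt z).sub (hasDerivAt_id z)).congr_deriv ?_
  unfold va
  ring

lemma h_eq (z : ℝ) : h z = z + kap z := by unfold kap; ring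

lemma va_eq (z : ℝ) : va z = 1 - z * kap z - kap z ^ 2 := by unfold va; rw [h_eq z]; ring

lemma va_hasDerivAt (z : ℝ) : HasDerivAt va (-(h z * (kap z ^ 2 - va z))) z := by
  refine (((h_hasDerivAt z).mul (kap_hasDerivAt z)).const_sub 1).congr_deriv ?_
  ring

lemma sqrt_two_pi_pos : 0 < √(2 * π) := sqrt_pos.2 (by positivity)

lemma E0_hasDerivAt (z : ℝ) : HasDerivAt E0 (h z) z := by
  have h1 := sqrt_two_pi_pos.ne'
  have h2 := (J_pos z).ne'
  refine (((J_hasDerivAt z).div_const √(2 * π)).log (div_ne_zero h2 h1)).neg.congr_deriv ?_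
  unfold h
  field_simp

lemma E0_pos (z : ℝ) : 0 < E0 z :=
  neg_pos.2 (log_neg (div_pos (J_pos z) sqrt_two_pi_pos) ((div_lt_one sqrt_two_pi_pos).2 (J_lt z)))

lemma E0_tendsto_atBot : Tendsto E0 atBot (𝓝 0) := by
  have h1 := J_tendsto_atBot.div_const √(2 * π)
  rw [div_self sqrt_two_pi_pos.ne'] at h1
  have := (h1.log one_ne_zero).neg
  rwa [log_one, neg_zero] at this

lemma h_tendsto_atBot : Tendsto h atBot (𝓝 0) := by
  have := ph_tendsto_atBot.div J_tendsto_atBot sqrt_two_pi_pos.ne'
  rwa [zero_div] at this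

/-- `log h = E0 - z² / 2 - log √(2π)` -/
lemma log_h (z : ℝ) : log (h z) = E0 z - z ^ 2 / 2 - log √(2 * π) := by
  unfold h E0 ph
  rw [log_div (exp_pos _).ne' (J_pos z).ne', log_div (J_pos z).ne' sqrt_two_pi_pos.ne', log_exp]
  ring

lemma log_h_hasDerivAt (z : ℝ) : HasDerivAt (fun z => log (h z)) (kap z) z := by
  refine ((h_hasDerivAt z).log (h_pos z).ne').congr_deriv ?_
  have := (h_pos z).ne'
  field_simp

/-- Upper barriers for the hazard function. -/
lemma h_lt_of_barrier {g g' : ℝ → ℝ} {z : ℝ} (hd : ∀ x, z ≤ x → HasDerivAt g (g' x) x)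
    (hp : ∀ x, z ≤ x → 0 < g x) (h1 : ∀ᶠ x in atTop, 1 ≤ g x)
    (hn : ∀ x, z < x → g' x < g x * (g x - x)) : h z < g z := by
  have hl : Tendsto (fun x => ph x / g x) atTop (𝓝 0) :=
    tendsto_of_tendsto_of_tendsto_of_le_of_le' tendsto_const_nhds ph_tendsto_atTop
      ((eventually_ge_atTop z).mono fun x hx => (div_pos (ph_pos x) (hp x hx)).le)
      (h1.mono fun x hx => div_le_self (ph_pos x).le hx)
  have hl' := J_tendsto_atTop.sub hl
  rw [sub_zero] at hl'
  have := pos_of_anti (u := fun x => J x - ph x / g x)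
    (u' := fun x => ph x * (g' x - g x * (g x - x)) / g x ^ 2) (z := z)
    (fun x hx => by
      refine ((J_hasDerivAt x).sub ((ph_hasDerivAt x).div (hd x hx) (hp x hx).ne')).congr_deriv ?_
      have := (hp x hx).ne'
      field_simp
      ring)
    (fun x hx => div_neg_of_neg_of_pos (mul_neg_of_pos_of_neg (ph_pos x) (by linarith [hn x hx]))
      (pow_pos (hp x hx.le) 2)) hl'
  rw [sub_pos, div_lt_iff₀ (hp z le_rfl)] at this
  rw [h, div_lt_iff₀ (J_pos z)]
  linarith

/-- Lower barriers for the hazard function. -/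
lemma lt_h_of_barrier {g g' : ℝ → ℝ} {z : ℝ} (hd : ∀ x, z ≤ x → HasDerivAt g (g' x) x)
    (hp : ∀ x, z ≤ x → 0 < g x) (h1 : ∀ᶠ x in atTop, 1 ≤ g x)
    (hn : ∀ x, z < x → g x * (g x - x) < g' x) : g z < h z := by
  have hl : Tendsto (fun x => ph x / g x) atTop (𝓝 0) :=
    tendsto_of_tendsto_of_tendsto_of_le_of_le' tendsto_const_nhds ph_tendsto_atTop
      ((eventually_ge_atTop z).mono fun x hx => (div_pos (ph_pos x) (hp x hx)).le)
      (h1.mono fun x hx => div_le_self (ph_pos x).le hx)
  have hl' := hl.sub J_tendsto_atTop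
  rw [sub_zero] at hl'
  have := pos_of_anti (u := fun x => ph x / g x - J x)
    (u' := fun x => ph x * (g x * (g x - x) - g' x) / g x ^ 2) (z := z)
    (fun x hx => by
      refine (((ph_hasDerivAt x).div (hd x hx) (hp x hx).ne').sub (J_hasDerivAt x)).congr_deriv ?_
      have := (hp x hx).ne'
      field_simp
      ring)
    (fun x hx => div_neg_of_neg_of_pos (mul_neg_of_pos_of_neg (ph_pos x) (by linarith [hn x hx]))
      (pow_pos (hp x hx.le) 2)) hl'
  rw [sub_pos, lt_div_iff₀ (hp z le_rfl)] at this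
  rw [h, lt_div_iff₀ (J_pos z)]
  linarith

lemma kap_pos (z : ℝ) : 0 < kap z := by
  unfold kap
  rcases le_or_gt z 0 with hz | hz
  · linarith [h_pos z]
  · have := lt_h_of_barrier (g := fun x => x) (g' := fun _ => 1) (z := z)
      (fun x _ => hasDerivAt_id x) (fun x hx => by linarith) (eventually_ge_atTop 1)
      (fun x _ => by simp)
    linarith

lemma sqrt_hasDerivAt {c : ℝ} (hc : 0 < c) (x : ℝ) :
    HasDerivAt (fun x => √(x ^ 2 + c)) (x / √(x ^ 2 + c)) x := by
  have h0 : x ^ 2 + c ≠ 0 := by positivity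
  refine ((((hasDerivAt_id x).pow 2).add_const c).sqrt h0).congr_deriv ?_
  simp only [id, Nat.cast_ofNat, Nat.add_one_sub_one, pow_one, Pi.pow_apply]
  field_simp

lemma abs_lt_sqrt' {c : ℝ} (hc : 0 < c) (x : ℝ) : |x| < √(x ^ 2 + c) :=
  abs_lt_of_sq_lt_sq (by rw [sq_sqrt (by positivity)]; linarith) (sqrt_nonneg _)

/-- `h' < 1` -/
lemma va_pos (z : ℝ) : 0 < va z := by
  have s : ∀ x : ℝ, √(x ^ 2 + 4) ^ 2 = x ^ 2 + 4 := fun x => sq_sqrt (by positivity)
  have a := fun x => abs_lt.1 (abs_lt_sqrt' (c := 4) (by norm_num) x)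
  have := h_lt_of_barrier (g := fun x => (x + √(x ^ 2 + 4)) / 2)
    (g' := fun x => (1 + x / √(x ^ 2 + 4)) / 2) (z := z)
    (fun x _ => ((hasDerivAt_id x).add (sqrt_hasDerivAt (by norm_num) x)).div_const 2)
    (fun x _ => by linarith [(a x).1])
    ((eventually_ge_atTop 1).mono fun x hx => by linarith [(a x).2])
    (fun x _ => by
      have h1 : x / √(x ^ 2 + 4) < 1 := (div_lt_one (by positivity)).2 (a x).2
      nlinarith [s x])
  have h1 := h_pos z
  have h2 := kap_pos z
  unfold va kap at *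
  nlinarith [s z]

/-- `h'' > 0` -/
lemma va_lt (z : ℝ) : va z < kap z ^ 2 := by
  have h1 := h_pos z
  have h2 := kap_pos z
  rcases le_or_gt z (-1) with hz | hz
  · unfold va kap at *
    nlinarith
  have s : ∀ x : ℝ, √(x ^ 2 + 8) ^ 2 = x ^ 2 + 8 := fun x => sq_sqrt (by positivity)
  have a := fun x => abs_lt.1 (abs_lt_sqrt' (c := 8) (by norm_num) x)
  have := lt_h_of_barrier (g := fun x => (3 * x + √(x ^ 2 + 8)) / 4)
    (g' := fun x => (3 * 1 + x / √(x ^ 2 + 8)) / 4) (z := z)
    (fun x _ => (((hasDerivAt_id x).const_mul 3).add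
      (sqrt_hasDerivAt (by norm_num) x)).div_const 4)
    (fun x hx => by
      rcases le_or_gt 0 x with h0 | h0
      · linarith [(a x).2, (a x).1]
      · have : -3 * x < √(x ^ 2 + 8) := lt_sqrt_of_sq_lt (by nlinarith)
        linarith)
    ((eventually_ge_atTop 1).mono fun x hx => by linarith [(a x).2])
    (fun x _ => by
      have hs : 0 < √(x ^ 2 + 8) := by positivity
      have k : x ^ 3 + 6 * x < √(x ^ 2 + 8) * (2 + x ^ 2) :=
        lt_of_pow_lt_pow_left₀ 2 (by positivity) (by rw [mul_pow, s]; nlinarith)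
      have e : x / √(x ^ 2 + 8) * √(x ^ 2 + 8) = x := div_mul_cancel₀ _ hs.ne'
      refine lt_of_mul_lt_mul_right ?_ hs.le
      have e2 : (3 * x + √(x ^ 2 + 8)) / 4 * ((3 * x + √(x ^ 2 + 8)) / 4 - x) * √(x ^ 2 + 8) =
          (x * (x ^ 2 + 8) + (4 - x ^ 2) * √(x ^ 2 + 8)) / 8 := by
        have := s x
        generalize √(x ^ 2 + 8) = r at *
        linear_combination (x / 8 + r / 16) * this
      rw [e2]
      nlinarith)
  unfold va kap at *
  nlinarith [s z, (a z).1, (a z).2]

/-- Borell's inequality for the first moments: `4 κ² < (1 - z κ) (3 - z κ)`. -/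
lemma borell (z : ℝ) : 4 * kap z ^ 2 < (1 - z * kap z) * (3 - z * kap z) := by
  have h2 := kap_pos z
  rcases le_or_gt z (-2) with hz | hz
  · have : 0 ≤ (z ^ 2 - 4) * kap z ^ 2 := mul_nonneg (by nlinarith) (sq_nonneg _)
    nlinarith
  have s : ∀ x : ℝ, √(x ^ 2 + 12) ^ 2 = x ^ 2 + 12 := fun x => sq_sqrt (by positivity)
  have a := fun x => abs_lt.1 (abs_lt_sqrt' (c := 12) (by norm_num) x)
  have p : ∀ x, -2 < x → 0 < 2 * x + √(x ^ 2 + 12) := fun x hx => by
    rcases le_or_gt 0 x with h0 | h0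
    · linarith [(a x).2, sqrt_pos.2 (show 0 < x ^ 2 + 12 by positivity)]
    · have : -2 * x < √(x ^ 2 + 12) := lt_sqrt_of_sq_lt (by nlinarith)
      linarith
  have := h_lt_of_barrier (g := fun x => x + 3 / (2 * x + √(x ^ 2 + 12)))
    (g' := fun x => 1 - 3 * (2 + x / √(x ^ 2 + 12)) / (2 * x + √(x ^ 2 + 12)) ^ 2) (z := z)
    (fun x hx => by
      refine ((hasDerivAt_id x).add ((hasDerivAt_const x 3).div
        (((hasDerivAt_id x).const_mul 2).add (sqrt_hasDerivAt (by norm_num) x))
          (p x (by linarith)).ne')).congr_deriv ?_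
      simp only [id, Pi.add_apply]
      ring)
    (fun x hx => by
      have hp := p x (by linarith)
      have : -x * √(x ^ 2 + 12) < 2 * x ^ 2 + 3 :=
        lt_of_pow_lt_pow_left₀ 2 (by positivity) (by rw [mul_pow, s]; nlinarith)
      have e : x + 3 / (2 * x + √(x ^ 2 + 12)) =
          (x * (2 * x + √(x ^ 2 + 12)) + 3) / (2 * x + √(x ^ 2 + 12)) := by
        rw [add_div, mul_div_cancel_right₀ _ hp.ne']
      rw [e]
      exact div_pos (by nlinarith) hp)
    ((eventually_ge_atTop 1).mono fun x hx => by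
      have := div_pos three_pos (p x (by linarith))
      linarith)
    (fun x hx => by
      have hp := p x (by linarith)
      have hs : 0 < √(x ^ 2 + 12) := by positivity
      have k : x ^ 3 + 9 * x < √(x ^ 2 + 12) * (x ^ 2 + 3) :=
        lt_of_pow_lt_pow_left₀ 2 (by positivity) (by rw [mul_pow, s]; nlinarith)
      have := s x
      generalize √(x ^ 2 + 12) = r at *
      rw [← sub_pos]
      obtain ⟨q, hq⟩ : ∃ q, q = 2 * x + r := ⟨_, rfl⟩
      rw [← hq] at hp ⊢
      have e : (x + 3 / q) * (x + 3 / q - x) - (1 - 3 * (2 + x / r) / q ^ 2) =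
          (r * (x ^ 2 + 3) - (x ^ 3 + 9 * x)) / (r * q ^ 2) := by
        field_simp
        rw [hq]
        linear_combination (-r - x) * this
      rw [e]
      exact div_pos (by linarith) (by positivity))
  have hp := p z hz
  have k : kap z * (2 * z + √(z ^ 2 + 12)) < 3 := by
    rw [← lt_div_iff₀ hp]; unfold kap; linarith
  have k2 : kap z * √(z ^ 2 + 12) < 3 - 2 * z * kap z := by linarith
  have k3 : (kap z * √(z ^ 2 + 12)) ^ 2 < (3 - 2 * z * kap z) ^ 2 :=
    pow_lt_pow_left₀ k2 (by positivity) two_ne_zero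
  rw [mul_pow, s] at k3
  nlinarith

end Vale.Agent.P254.SF
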