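import Vale.Agent.P254Z.SF.Pair
import Vale.Agent.P254Z.SF.Ball

/-!
# P254: certified evaluation of `h`, `κ`, `E0` at a point
-/

namespace Vale.Agent.P254.SF

open MeasureTheory Filter Topology Set Real B

/-! ### Series -/

/-- summation of a series given by a recurrence, with the last term (times `W`) as error bound -/
def ser (step : Nat → B → B) (W : B) (n : Nat) : Nat → B → B → B :=
  Nat.rec (motive := fun _ => Nat → B → B → B) (fun _ T S => S + sym (T * W))
    (fun _ ih k T S => seq (step k T) fun T' => seq (S + T) fun S' => ih (Nat.succ k) T' S') n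

lemma ser_mem {step : Nat → B → B} {W : B} {a : ℕ → ℝ} {w : ℝ}
    (hstep : ∀ k T, mem (a k) T → mem (a (k + 1)) (step k T)) (hw : mem w W) (n : ℕ) :
    ∀ (k : ℕ) (T S : B) (s y : ℝ), mem (a k) T → mem s S → |y| ≤ |a (k + n) * w| →
      mem (s + ∑ j ∈ Finset.range n, a (k + j) + y) (ser step W n k T S) := by
  induction n with
  | zero =>
    intro k T S s y hT hS hy
    rw [Finset.sum_range_zero, add_zero]
    exact mem_add hS (mem_sym (mem_mul hT hw) hy)
  | succ n ih =>
    intro k T S s y hT hS hy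
    change mem _ (seq (step k T) fun T' => seq (S + T) fun S' => ser step W n (k + 1) T' S')
    rw [seq_eq, seq_eq]
    refine mem_congr (ih (k + 1) _ _ (s + a k) y (hstep k T hT) (mem_add hS hT)
      (by rwa [add_assoc, add_comm 1 n])) ?_
    rw [Finset.sum_range_succ', add_zero]
    simp only [add_assoc, add_comm 1, add_comm (a k)]

lemma mem_one : mem 1 (cst 1 1) := mem_congr (mem_cst 1 1) (by norm_num)

lemma mem_zero : mem 0 (cst 0 1) := mem_congr (mem_cst 0 1) (by norm_num)

lemma mem_cond {x : ℝ} {c : Bool} {a : B} (h : c = true → mem x a) : mem x (cond c a bad) := by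
  cases c
  · trivial
  · exact h rfl

/-- the square, evaluating the argument once -/
def sqB (a : B) : B := seq a fun a => a * a

lemma mem_sqB {x : ℝ} {a : B} (h : mem x a) : mem (x ^ 2) (sqB a) := by
  rw [sqB, seq_eq, sq]; exact mem_mul h h

/-- the exponential function on `[-32, 32]` -/
def expB (a : B) : B := seq (sc 1 32 a) fun t =>
  cond (pos (cst 1 1 - t) && pos (cst 1 1 + t))
    (sqB (sqB (sqB (sqB (sqB
      (ser (fun k T => sc 1 (Nat.succ k) (T * t)) (cst 2 1) 28 0 (cst 1 1) (cst 0 1))))))) bad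

lemma mem_expB {x : ℝ} {a : B} (h : mem x a) : mem (exp x) (expB a) := by
  rw [expB, seq_eq]
  have ht := mem_sc 1 32 h
  generalize sc 1 32 a = T at *
  set t : ℝ := ((1 : ℤ) : ℝ) / (32 : ℕ) * x with hx
  refine mem_cond fun hc => ?_
  rw [Bool.and_eq_true] at hc
  have h1 := pos_of_mem (mem_sub mem_one ht) hc.1
  have h2 := pos_of_mem (mem_add mem_one ht) hc.2
  have h3 := Real.exp_bound (x := t) (abs_le.2 ⟨by linarith, by linarith⟩) (n := 28) (by norm_num)
  have h4 := ser_mem (a := fun k => t ^ k / k.factorial)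
    (step := fun k T' => sc 1 (Nat.succ k) (T' * T)) (fun k T' hT' => by
      refine mem_congr (mem_sc 1 (Nat.succ k) (mem_mul hT' ht)) ?_
      rw [Nat.factorial_succ]
      push_cast
      rw [pow_succ]
      field_simp) (mem_cst 2 1) 28 0 (cst 1 1) (cst 0 1) 0
      (exp t - ∑ m ∈ Finset.range 28, t ^ m / m.factorial) (mem_congr mem_one (by simp)) mem_zero
      (h3.trans (by
        rw [zero_add, abs_mul (t ^ 28 / _), abs_div (t ^ 28), abs_pow, Nat.abs_cast,
          div_mul_eq_mul_div, mul_div_assoc]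
        refine mul_le_mul_of_nonneg_left ?_ (by positivity)
        rw [div_le_div_iff₀ (by positivity) (by positivity)]
        norm_num [Nat.factorial]))
  simp only [zero_add, add_sub_cancel] at h4
  refine mem_congr (mem_sqB (mem_sqB (mem_sqB (mem_sqB (mem_sqB h4))))) ?_
  simp only [← exp_nat_mul]
  congr 1
  rw [hx]
  push_cast
  ring

/-- the logarithm of a number close to `1` -/
def logB (a : B) : B := seq (a - cst 1 1) fun d =>
  cond (pos (d + cst 1 2)) (d + sym (sc 2 1 (d * d))) bad

lemma mem_logB {y : ℝ} {a : B} (h : mem y a) : mem (log y) (logB a) := by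
  rw [logB, seq_eq]
  have hd := mem_sub h mem_one
  refine mem_cond fun hc => ?_
  have h1 := pos_of_mem (mem_add hd (mem_cst 1 2)) hc
  norm_num at h1
  have y0 : 0 < y := by linarith
  have h2 := log_le_sub_one_of_pos y0
  have h3 := one_sub_inv_le_log_of_pos y0
  refine mem_congr (mem_add hd (mem_sym (y := log y - (y - 1))
    (mem_sc 2 1 (mem_mul hd hd)) ?_)) (by ring)
  have h4 : y - 1 - (1 - y⁻¹) ≤ 2 * ((y - 1) * (y - 1)) := by
    have e : y - 1 - (1 - y⁻¹) = (y - 1) * (y - 1) / y := by field_simp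
    rw [e, div_le_iff₀ y0]
    nlinarith [mul_self_nonneg (y - 1)]
  refine le_trans ?_ (le_abs_self _)
  rw [abs_le]
  push_cast
  constructor <;> nlinarith [mul_self_nonneg (y - 1)]

/-- `√(2π)` -/
def sB : B := cst 25066282746310005024176 10000000000000000000000 + sym (cst 1 200000000000000000000)

lemma mem_sB : mem √(2 * π) sB := by
  have h1 : (2.5066282746310005024147 : ℝ) ≤ √(2 * π) :=
    le_sqrt_of_sq_le (by have := pi_gt_d20; norm_num at this ⊢; linarith)
  have h2 : √(2 * π) ≤ 2.5066282746310005024188 :=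
    sqrt_le_iff.2 ⟨by norm_num, by have := pi_lt_d20; norm_num at this ⊢; linarith⟩
  refine mem_congr (mem_add (mem_cst _ _) (mem_sym (mem_cst _ _)
    (y := √(2 * π) - 2.5066282746310005024176) ?_)) (by norm_num)
  rw [abs_le]
  norm_num at h1 h2 ⊢
  constructor <;> linarith

/-! ### The series of the Mills ratio -/

/-- `x ^ (2 k + 1) / (2 k + 1)!!` -/
noncomputable def ta (x : ℝ) : ℕ → ℝ
  | 0 => x
  | k + 1 => ta x k * x ^ 2 / (2 * k + 3)

/-- its derivative -/
noncomputable def tb (x : ℝ) : ℕ → ℝ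
  | 0 => 1
  | k + 1 => x * ta x k

lemma tb_mul (x : ℝ) (k : ℕ) : tb x k * x = (2 * k + 1) * ta x k := by
  cases k with
  | zero => simp [ta, tb]
  | succ k =>
    simp only [ta, tb]
    push_cast
    field_simp
    ring

lemma ta_hasDerivAt (k : ℕ) (x : ℝ) : HasDerivAt (fun x => ta x k) (tb x k) x := by
  induction k with
  | zero => exact hasDerivAt_id x
  | succ k ih =>
    refine ((ih.mul ((hasDerivAt_id x).pow 2)).div_const (2 * k + 3)).congr_deriv ?_
    simp only [id, Pi.pow_apply, Nat.cast_ofNat, Nat.add_one_sub_one, pow_one]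
    rw [div_eq_iff (by positivity), show tb x (k + 1) = x * ta x k from rfl]
    linear_combination x * tb_mul x k

lemma ta_zero (k : ℕ) : ta 0 k = 0 := by cases k <;> simp [ta]

lemma tb_nonneg (x : ℝ) (k : ℕ) : 0 ≤ tb x k := by
  cases k with
  | zero => exact zero_le_one
  | succ k =>
    simp only [tb]
    induction k with
    | zero => exact mul_self_nonneg x
    | succ k ih =>
      simp only [ta]
      rw [← mul_div_assoc, ← mul_assoc]
      positivity

lemma J_zero : J 0 = √(2 * π) / 2 := by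
  rw [J, ph_eq, integral_gaussian_Ioi]
  congr 2
  ring

lemma J_series (n : ℕ) (x : ℝ) :
    |J x - √(2 * π) / 2 + ph x * ∑ k ∈ Finset.range n, ta x k| ≤ |ta x n| := by
  have hd : ∀ x, HasDerivAt (fun x => J x - √(2 * π) / 2 + ph x * ∑ k ∈ Finset.range n, ta x k)
      (-(ph x * tb x n)) x := by
    intro x
    refine (((J_hasDerivAt x).sub_const _).add ((ph_hasDerivAt x).mul
      (HasDerivAt.fun_sum fun k _ => ta_hasDerivAt k x))).congr_deriv ?_
    have e : ∑ k ∈ Finset.range n, (tb x (k + 1) - tb x k) = tb x n - tb x 0 :=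
      Finset.sum_range_sub _ _
    rw [Finset.sum_sub_distrib, show tb x 0 = 1 from rfl,
      show (fun k => tb x (k + 1)) = fun k => x * ta x k from rfl, ← Finset.mul_sum] at e
    linear_combination -ph x * e
  have hb : ∀ x, 0 ≤ ph x * tb x n ∧ ph x * tb x n ≤ tb x n := fun x =>
    ⟨mul_nonneg (ph_pos x).le (tb_nonneg x n), mul_le_of_le_one_left (tb_nonneg x n)
      (exp_le_one_iff.2 (by nlinarith [sq_nonneg x]))⟩
  have h0 : J 0 - √(2 * π) / 2 + ph 0 * ∑ k ∈ Finset.range n, ta 0 k = 0 := by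
    simp [J_zero, ta_zero]
  rcases le_total 0 x with hx | hx
  · have h1 := le_of_deriv_nonneg hx (fun t _ => (hd t).neg) fun t _ => by linarith [(hb t).1]
    have h2 := le_of_deriv_nonneg hx (fun t _ => (hd t).add (ta_hasDerivAt n t))
      fun t _ => by linarith [(hb t).2]
    simp only [Pi.neg_apply, Pi.add_apply, h0, ta_zero n] at h1 h2
    refine le_trans ?_ (le_abs_self _)
    rw [abs_le]
    constructor <;> linarith
  · have h1 := le_of_deriv_nonneg hx (fun t _ => (hd t).neg) fun t _ => by linarith [(hb t).1]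
    have h2 := le_of_deriv_nonneg hx (fun t _ => (hd t).add (ta_hasDerivAt n t))
      fun t _ => by linarith [(hb t).2]
    simp only [Pi.neg_apply, Pi.add_apply, h0, ta_zero n] at h1 h2
    refine le_trans ?_ (neg_le_abs _)
    rw [abs_le]
    constructor <;> linarith

/-- the hazard function by the series -/
def hSer (n : Nat) (X : B) : B := seq (X * X) fun X2 => seq (expB (sc 1 2 X2)) fun e =>
  inv (sc 1 2 (sB * e) - ser (fun k T => sc 1 (Nat.add (Nat.mul 2 k) 3) (T * X2)) e n 0 X (cst 0 1))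

lemma mem_hSer (n : ℕ) {x : ℝ} {X : B} (hx : mem x X) : mem (h x) (hSer n X) := by
  rw [hSer, seq_eq, seq_eq]
  have h2 := mem_mul hx hx
  have he := mem_expB (mem_sc 1 2 h2)
  set e := exp (((1 : ℤ) : ℝ) / (2 : ℕ) * (x * x)) with hee
  have pe : ph x * e = 1 := by
    rw [hee, ph, ← exp_add, ← exp_zero]
    congr 1
    push_cast
    ring
  have h3 := ser_mem (a := ta x) (step := fun k T => sc 1 (Nat.add (Nat.mul 2 k) 3) (T * (X * X)))
    (fun k T hT => by
      refine mem_congr (mem_sc 1 (Nat.add (Nat.mul 2 k) 3) (mem_mul hT h2)) ?_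
      simp only [ta, Nat.add_eq, Nat.mul_eq]
      push_cast
      ring) he n 0 X (cst 0 1) 0
    (-(J x - √(2 * π) / 2 + ph x * ∑ k ∈ Finset.range n, ta x k) * e) hx mem_zero (by
      rw [zero_add, abs_mul, abs_mul, abs_neg]
      exact mul_le_mul_of_nonneg_right (J_series n x) (abs_nonneg _))
  refine mem_congr (mem_inv (mem_sub (mem_sc 1 2 (mem_mul mem_sB he)) h3)) ?_
  rw [h, ← inv_div (J x), inv_inj, eq_div_iff (ph_pos x).ne']
  simp only [zero_add]
  push_cast
  linear_combination (J x + ph x * ∑ k ∈ Finset.range n, ta x k) * pe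

/-! ### The continued fraction -/

/-- `∫ (t - z) ^ k ph t` over `(z, ∞)` -/
noncomputable def II : ℕ → ℝ → ℝ
  | 0, z => J z
  | 1, z => ph z - z * J z
  | k + 2, z => (k + 1) * II k z - z * II (k + 1) z

lemma II_hasDerivAt : ∀ (k : ℕ) (z : ℝ), HasDerivAt (II (k + 1)) (-((k + 1) * II k z)) z
  | 0, z => by
    refine ((ph_hasDerivAt z).sub ((hasDerivAt_id z).mul (J_hasDerivAt z))).congr_deriv ?_
    simp [II]
  | 1, z => by
    refine (((J_hasDerivAt z).const_mul (((0 : ℕ) : ℝ) + 1)).sub
      ((hasDerivAt_id z).mul (II_hasDerivAt 0 z))).congr_deriv ?_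
    simp only [II, id]
    push_cast
    ring
  | k + 2, z => by
    refine (((II_hasDerivAt k z).const_mul (((k + 1 : ℕ) : ℝ) + 1)).sub
      ((hasDerivAt_id z).mul (II_hasDerivAt (k + 1) z))).congr_deriv ?_
    simp only [II, id]
    push_cast
    ring

lemma pow_ph_tendsto (k : ℕ) : Tendsto (fun z => z ^ k * ph z) atTop (𝓝 0) := by
  refine tendsto_of_tendsto_of_tendsto_of_le_of_le' tendsto_const_nhds
    (tendsto_pow_mul_exp_neg_atTop_nhds_zero k)
    ((eventually_ge_atTop 0).mono fun z hz => mul_nonneg (pow_nonneg hz k) (ph_pos z).le)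
    ((eventually_ge_atTop 2).mono fun z hz => ?_)
  have h3 : ph z ≤ exp (-z) := exp_le_exp.2 (by nlinarith)
  gcongr

lemma II_tendsto : ∀ k j : ℕ, Tendsto (fun z => z ^ j * II k z) atTop (𝓝 0)
  | 0, j => pow_J_tendsto j
  | 1, j => by
    have := (pow_ph_tendsto j).sub (pow_J_tendsto (j + 1))
    rw [sub_zero] at this
    exact this.congr fun z => by simp only [II]; ring
  | k + 2, j => by
    have := ((II_tendsto k j).const_mul ((k : ℝ) + 1)).sub (II_tendsto (k + 1) (j + 1))
    rw [mul_zero, sub_zero] at this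
    exact this.congr fun z => by simp only [II]; ring

lemma II_pos (k : ℕ) : ∀ z, 0 < II k z := by
  induction k with
  | zero => exact J_pos
  | succ k ih =>
    intro z
    exact pos_of_anti (fun x _ => II_hasDerivAt k x)
      (fun x _ => neg_neg_of_pos (mul_pos (by positivity) (ih x))) (by simpa using II_tendsto (k + 1) 0)

/-- ratios of consecutive moments -/
noncomputable def rr (k : ℕ) (z : ℝ) : ℝ := II (k + 1) z / II k z

lemma rr_pos (k : ℕ) (z : ℝ) : 0 < rr k z := div_pos (II_pos _ z) (II_pos _ z)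

lemma rr_zero (z : ℝ) : rr 0 z = kap z := by
  have := (J_pos z).ne'
  simp only [rr, II, kap, h]
  field_simp

lemma rr_mul (k : ℕ) (z : ℝ) : rr k z * (z + rr (k + 1) z) = k + 1 := by
  have h1 := (II_pos k z).ne'
  have h2 := (II_pos (k + 1) z).ne'
  simp only [rr]
  rw [show II (k + 1 + 1) z = (k + 1) * II k z - z * II (k + 1) z from rfl]
  field_simp
  ring

lemma rr_add_pos (k : ℕ) (z : ℝ) : 0 < z + rr (k + 1) z :=
  pos_of_mul_pos_right (a := rr k z) (by rw [rr_mul]; positivity) (rr_pos k z).le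

lemma rr_eq (k : ℕ) (z : ℝ) : rr k z = (k + 1) * (z + rr (k + 1) z)⁻¹ := by
  rw [← rr_mul k z, mul_inv_cancel_right₀ (rr_add_pos k z).ne']

lemma rr_lt (k : ℕ) {z : ℝ} (hz : 0 < z) : rr k z < (k + 1) / z := by
  rw [lt_div_iff₀ hz, ← rr_mul k z]
  nlinarith [mul_pos (rr_pos k z) (rr_pos (k + 1) z)]

/-- the continued fraction of depth `n` for `rr k` -/
def cfB (X : B) (n : Nat) : Nat → B :=
  Nat.rec (motive := fun _ => Nat → B)
    (fun k => cond (pos X) (seq (sc (Int.ofNat (Nat.succ k)) 2 (inv X)) fun a => a + sym a) bad)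
    (fun _ ih k => sc (Int.ofNat (Nat.succ k)) 1 (inv (X + ih (Nat.succ k)))) n

lemma mem_cfB {x : ℝ} {X : B} (hx : mem x X) (n : ℕ) : ∀ k, mem (rr k x) (cfB X n k) := by
  induction n with
  | zero =>
    intro k
    refine mem_cond fun hc => ?_
    rw [seq_eq]
    have x0 := pos_of_mem hx hc
    have h1 := mem_sc (Int.ofNat (Nat.succ k)) 2 (mem_inv hx)
    have e : ((Int.ofNat (Nat.succ k) : ℤ) : ℝ) / (2 : ℕ) * x⁻¹ = (k + 1) / x / 2 := by
      simp only [Int.ofNat_eq_natCast]
      push_cast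
      ring
    rw [e] at h1
    refine mem_congr (mem_add h1 (mem_sym (y := rr k x - (k + 1) / x / 2) h1 ?_)) (by ring)
    refine le_trans ?_ (le_abs_self _)
    rw [abs_le]
    constructor <;> linarith [rr_pos k x, rr_lt k x0]
  | succ n ih =>
    intro k
    refine mem_congr (mem_sc (Int.ofNat (Nat.succ k)) 1 (mem_inv (mem_add hx (ih (k + 1))))) ?_
    rw [rr_eq k x]
    simp

/-- `E0` from `h`, with a witness `w` for `2 ^ 60 log (h √(2π))` -/
def eB (X H : B) (w : Int) : B := seq (cst w 1152921504606846976) fun L =>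
  sc 1 2 (X * X) + L + logB (sB * H * expB (-L))

lemma mem_eB {x : ℝ} {X H : B} (hx : mem x X) (hH : mem (h x) H) (w : ℤ) :
    mem (E0 x) (eB X H w) := by
  rw [eB, seq_eq]
  have hL := mem_cst w 1152921504606846976
  refine mem_congr (mem_add (mem_add (mem_sc 1 2 (mem_mul hx hx)) hL)
    (mem_logB (mem_mul (mem_mul mem_sB hH) (mem_expB (mem_neg hL))))) ?_
  rw [log_mul (mul_pos sqrt_two_pi_pos (h_pos x)).ne' (exp_pos _).ne', log_exp,
    log_mul sqrt_two_pi_pos.ne' (h_pos x).ne', log_h]
  push_cast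
  ring

end Vale.Agent.P254.SF
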