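import Vale.Agent.P254Z.SF.TailR

/-!
# P254: bounds on the left tail (helper39)
-/

namespace Vale.Agent.P254.SF

open MeasureTheory Filter Topology Set Real

lemma J_neg (x : ℝ) : J (-x) = √(2 * π) - J x := by
  have hd : ∀ t, HasDerivAt (fun t => J (-t) + J t) 0 t := fun t =>
    (((J_hasDerivAt (-t)).comp t (hasDerivAt_neg t)).add (J_hasDerivAt t)).congr_deriv (by
      rw [ph_neg]; ring)
  have := is_const_of_deriv_eq_zero (fun t => (hd t).differentiableAt) (fun t => (hd t).deriv) x 0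
  simp only [neg_zero, J_zero] at this
  linarith

lemma ph_le {y : ℝ} (hy : 6 ≤ y) : ph y ≤ y⁻¹ ^ 10 := by
  have y0 : 0 < y := by linarith
  have h1 := exp_nat_gt 18
  have h2 := add_one_le_exp ((y ^ 2 / 2 - 18) / 5)
  have h3 : (y ^ 2 / 36) ^ 5 ≤ exp ((y ^ 2 / 2 - 18) / 5) ^ 5 :=
    pow_le_pow_left₀ (by positivity) (by nlinarith) 5
  have e : exp (y ^ 2 / 2) = exp (18 : ℕ) * exp ((y ^ 2 / 2 - 18) / 5) ^ 5 := by
    rw [← exp_nat_mul, ← exp_add]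
    congr 1
    push_cast
    ring
  have h4 : y ^ 10 ≤ exp (y ^ 2 / 2) := by
    rw [e]
    refine le_trans ?_ (mul_le_mul h1 h3 (by positivity) (exp_pos _).le)
    have : 0 < y ^ 10 := by positivity
    nlinarith
  rw [ph, neg_div, exp_neg, inv_pow]
  exact inv_anti₀ (by positivity) h4

/-- `b (-y) ≤ M₀ (y)`, and the difference is tiny. -/
lemma b_neg (y : ℝ) : b (-y) ≤ MM 0 y ∧ MM 0 y - J y / √(2 * π) * MM 0 y ≤ b (-y) ∧
    J y / √(2 * π) ≤ E0 (-y) := by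
  have s0 := sqrt_two_pi_pos
  have p0 : 0 < J y / √(2 * π) := div_pos (J_pos y) s0
  have p1 : J y / √(2 * π) < 1 := (div_lt_one s0).2 (J_lt y)
  have e1 : E0 (-y) = -log (1 - J y / √(2 * π)) := by
    rw [E0, J_neg, sub_div, div_self s0.ne']
  have e2 : b (-y) = E0 (-y) * (1 - J y / √(2 * π)) * (√(2 * π) / ph y) := by
    have := (ph_pos y).ne'
    have h2 : √(2 * π) - J y ≠ 0 := (sub_pos.2 (J_lt y)).ne'
    rw [b, h, J_neg, ph_neg]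
    field_simp
  have e3 : MM 0 y = J y / √(2 * π) * (√(2 * π) / ph y) := by
    have := (ph_pos y).ne'
    simp only [MM, II]
    field_simp
  have c0 : 0 < √(2 * π) / ph y := div_pos s0 (ph_pos y)
  rw [e2, e3]
  generalize √(2 * π) / ph y = c at *
  generalize J y / √(2 * π) = p at *
  have q0 : 0 < 1 - p := by linarith
  have l1 := log_le_sub_one_of_pos q0
  have l2 := log_le_sub_one_of_pos (inv_pos.2 q0)
  rw [log_inv] at l2
  have l3 : E0 (-y) * (1 - p) ≤ p := by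
    have := mul_le_mul_of_nonneg_right l2 q0.le
    rw [sub_mul, inv_mul_cancel₀ q0.ne'] at this
    rw [e1]
    linarith
  have l4 : p ≤ E0 (-y) := by rw [e1]; linarith
  refine ⟨by gcongr, ?_, l4⟩
  have : p * (1 - p) * c ≤ E0 (-y) * (1 - p) * c := by gcongr
  linarith

lemma h_neg_le {y : ℝ} (hy : 6 ≤ y) : h (-y) ≤ y⁻¹ ^ 10 / 2 ∧ J y / √(2 * π) ≤ y⁻¹ ^ 11 / 2 := by
  have y0 : 0 < y := by linarith
  have h1 := ph_le hy
  have s1 : y⁻¹ ≤ 1 / 6 := by rw [← one_div]; exact one_div_le_one_div_of_le (by norm_num) hy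
  have s0 : 0 < y⁻¹ := inv_pos.2 y0
  have h2 : J y ≤ ph y * y⁻¹ := by
    have := lt_h y
    rw [h, lt_div_iff₀ (J_pos y)] at this
    rw [← div_eq_mul_inv, le_div_iff₀ y0]
    linarith
  have h3 : J y ≤ y⁻¹ ^ 11 := h2.trans (by rw [pow_succ _ 10]; gcongr)
  have h4 : y⁻¹ ^ 11 ≤ 1 / 2 := (pow_le_pow_left₀ s0.le s1 11).trans (by norm_num)
  have h5 := lt_sqrt_two_pi
  constructor
  · rw [h, J_neg, ph_neg]
    exact div_le_div₀ (by positivity) h1 two_pos (by linarith)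
  · exact div_le_div₀ (by positivity) h3 two_pos (by linarith)

/-- On the left tail `b` and its derivatives are the moments `MM k (-z)`, up to tiny errors. -/
theorem tailM {y : ℝ} (hy : 6 ≤ y) :
    (MM 0 y - y⁻¹ ^ 12 ≤ b (-y) ∧ b (-y) ≤ MM 0 y) ∧
    (MM 1 y - y⁻¹ ^ 11 ≤ b1 (-y) ∧ b1 (-y) ≤ MM 1 y) ∧
    (MM 2 y - y⁻¹ ^ 10 ≤ b2 (-y) ∧ b2 (-y) ≤ MM 2 y) ∧
    (MM 3 y - y⁻¹ ^ 9 ≤ b3 (-y) ∧ b3 (-y) ≤ MM 3 y + y⁻¹ ^ 11) ∧
    (MM 4 y - y⁻¹ ^ 8 ≤ b4 (-y) ∧ b4 (-y) ≤ MM 4 y + y⁻¹ ^ 8) := by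
  have y0 : 0 < y := by linarith
  obtain ⟨a1, a2, a3⟩ := b_neg y
  obtain ⟨c1, c2⟩ := h_neg_le hy
  have p0 : 0 < J y / √(2 * π) := div_pos (J_pos y) sqrt_two_pi_pos
  have u0 := MM_zero_lt y0
  have m0 := MM_pos 0 y
  have e0 := h_mul_b (-y)
  have h0 := h_pos (-y)
  have b0 := b_pos (-y)
  have e1 : b1 (-y) = 1 - y * b (-y) - E0 (-y) := by rw [b1, kap, ← e0]; ring
  have ev : 1 - va (-y) = h (-y) * (h (-y) + y) := by rw [va, kap]; ring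
  have g0 := H2_pos (-y)
  have g1 : H2 (-y) ≤ h (-y) * (h (-y) + y) ^ 2 := by
    have := mul_pos h0 (va_pos (-y))
    rw [H2, kap]
    nlinarith
  rw [b4, b3_eq, b2_eq, ev, e1, MM4_eq, MM3_eq, MM2_eq, MM_one]
  rw [one_div] at u0
  have s0 : 0 < y⁻¹ := inv_pos.2 y0
  have s1 : y⁻¹ ≤ 1 / 6 := by rw [← one_div]; exact one_div_le_one_div_of_le (by norm_num) hy
  have st : y * y⁻¹ = 1 := mul_inv_cancel₀ y0.ne'
  generalize y⁻¹ = s at *
  generalize J y / √(2 * π) = p at *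
  generalize MM 0 y = M at *
  generalize H2 (-y) = g at *
  generalize E0 (-y) = E at *
  generalize h (-y) = H at *
  clear e1 ev
  generalize b (-y) = β at *
  obtain ⟨d, rfl⟩ : ∃ d, β = M - d := ⟨M - β, by ring⟩
  have d0 : 0 ≤ d := by linarith
  have d1 : d ≤ p * s := by linarith [mul_le_mul_of_nonneg_left u0.le p0.le]
  have d2 : y * d ≤ p := by
    have := mul_le_mul_of_nonneg_left d1 y0.le
    have e : y * (p * s) = p := by linear_combination p * st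
    linarith
  have E1 : E ≤ H * s := by rw [← e0]; gcongr; linarith
  have E2 : y * E ≤ H := by
    have := mul_le_mul_of_nonneg_left E1 y0.le
    have e : y * (H * s) = H := by linear_combination H * st
    linarith
  have t8 : 0 < s ^ 8 := by positivity
  have t9' : 0 < s ^ 9 := by positivity
  have t10' : 0 < s ^ 10 := by positivity
  have t11' : 0 < s ^ 11 := by positivity
  have t12' : 0 < s ^ 12 := by positivity
  have t9 : s ^ 9 ≤ s ^ 8 / 6 := by linarith [mul_le_mul_of_nonneg_left s1 t8.le]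
  have t10 : s ^ 10 ≤ s ^ 9 / 6 := by linarith [mul_le_mul_of_nonneg_left s1 t9'.le]
  have t11 : s ^ 11 ≤ s ^ 10 / 6 := by linarith [mul_le_mul_of_nonneg_left s1 t10'.le]
  have t12 : s ^ 12 ≤ s ^ 11 / 6 := by linarith [mul_le_mul_of_nonneg_left s1 t11'.le]
  have d3 : d ≤ s ^ 12 / 2 := by linarith [mul_le_mul_of_nonneg_right c2 s0.le]
  have E3 : E ≤ s ^ 11 / 2 := by linarith [mul_le_mul_of_nonneg_right c1 s0.le]
  have H1 : H ≤ 1 := by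
    have : s ^ 10 ≤ 1 := pow_le_one₀ s0.le (by linarith)
    linarith
  have y1 : y * H ≤ s ^ 9 / 2 := by
    have : y * H ≤ y * (s ^ 10 / 2) := by gcongr
    have e : y * (s ^ 10 / 2) = s ^ 9 / 2 := by linear_combination s ^ 9 / 2 * st
    linarith
  have y2 : y * (y * H) ≤ s ^ 8 / 2 := by
    have : y * (y * H) ≤ y * (s ^ 9 / 2) := by gcongr
    have e : y * (s ^ 9 / 2) = s ^ 8 / 2 := by linear_combination s ^ 8 / 2 * st
    linarith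
  have HH : H * H ≤ H := mul_le_of_le_one_right h0.le H1
  have HH0 : 0 < H * H := by positivity
  -- the successive errors
  obtain ⟨x1, hx1⟩ : ∃ x1, x1 = E - y * d := ⟨_, rfl⟩
  have x1a : 0 ≤ x1 := by linarith
  have x1b : x1 ≤ E := by linarith [mul_nonneg y0.le d0]
  obtain ⟨x2, hx2⟩ : ∃ x2, x2 = d - y * x1 + H := ⟨_, rfl⟩
  have yx1 : y * x1 ≤ y * E := by gcongr
  have yx1' : 0 ≤ y * x1 := by positivity
  have x2a : 0 ≤ x2 := by linarith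
  have x2b : x2 ≤ d + H := by linarith
  obtain ⟨x3, hx3⟩ : ∃ x3, x3 = 2 * x1 - y * x2 + H * (H + y) := ⟨_, rfl⟩
  have yx2 : y * x2 ≤ y * (d + H) := by gcongr
  have yx2' : 0 ≤ y * x2 := by positivity
  have x3a : -p ≤ x3 := by linarith
  have x3b : x3 ≤ 2 * E + H + y * H := by linarith
  have yx3 : y * x3 ≤ y * (2 * E + H + y * H) := by gcongr
  have yx3' : y * -p ≤ y * x3 := by gcongr
  have yp : y * p ≤ s ^ 10 / 2 := by
    have : y * p ≤ y * (s ^ 11 / 2) := by gcongr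
    have e : y * (s ^ 11 / 2) = s ^ 10 / 2 := by linear_combination s ^ 10 / 2 * st
    linarith
  have g2 : g ≤ H + 2 * (y * H) + y * (y * H) := by
    have : H * (H + y) ^ 2 ≤ H * (1 + y) ^ 2 := by gcongr
    linarith
  have f1 : 1 - y * (M - d) - E = 1 - y * M - x1 := by rw [hx1]; ring
  rw [f1]
  have f2 : M - d + -y * (1 - y * M - x1) - H = M - y * (1 - y * M) - x2 := by rw [hx2]; ring
  rw [f2]
  have f3 : 2 * (1 - y * M - x1) + -y * (M - y * (1 - y * M) - x2) - H * (H + y) =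
      2 * (1 - y * M) - y * (M - y * (1 - y * M)) - x3 := by rw [hx3]; ring
  rw [f3]
  refine ⟨⟨by linarith, by linarith⟩, ⟨by linarith, by linarith⟩, ⟨by linarith, by linarith⟩,
    ⟨by linarith, by linarith⟩, ⟨by linarith, by linarith⟩⟩

/-- explicit bounds on the left tail, in terms of `s = 1 / y` -/
theorem tailS {y : ℝ} (hy : 6 ≤ y) :
    (y⁻¹ - y⁻¹ ^ 3 - y⁻¹ ^ 12 ≤ b (-y) ∧ b (-y) ≤ y⁻¹ - y⁻¹ ^ 3 + 3 * y⁻¹ ^ 5) ∧
    (y⁻¹ ^ 2 - 3 * y⁻¹ ^ 4 - y⁻¹ ^ 11 ≤ b1 (-y) ∧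
      b1 (-y) ≤ y⁻¹ ^ 2 - 3 * y⁻¹ ^ 4 + 15 * y⁻¹ ^ 6) ∧
    (2 * y⁻¹ ^ 3 - 12 * y⁻¹ ^ 5 - y⁻¹ ^ 10 ≤ b2 (-y) ∧ b2 (-y) ≤ 2 * y⁻¹ ^ 3) ∧
    (6 * y⁻¹ ^ 4 - 60 * y⁻¹ ^ 6 - y⁻¹ ^ 9 ≤ b3 (-y) ∧ b3 (-y) ≤ 6 * y⁻¹ ^ 4 + y⁻¹ ^ 11) ∧
    (24 * y⁻¹ ^ 5 - 360 * y⁻¹ ^ 7 - y⁻¹ ^ 8 ≤ b4 (-y) ∧ b4 (-y) ≤ 24 * y⁻¹ ^ 5 + y⁻¹ ^ 8) := by
  have y0 : 0 < y := by linarith
  obtain ⟨⟨a0, c0⟩, ⟨a1, c1⟩, ⟨a2, c2⟩, ⟨a3, c3⟩, a4, c4⟩ := tailM hy
  have u2 := MM2_lt y0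
  have u3 := MM3_lt y0
  have u4 := MM4_lt y0
  have l0 := lt_MM0 y0
  have l1 := lt_MM1 y0
  have l2 := lt_MM2 y0
  have l3 := lt_MM3 y0
  have l4 := lt_MM4 y0
  have e1 := MM_one y
  have e2 := MM2_eq y
  simp only [div_eq_mul_inv _ (y ^ _), div_eq_mul_inv _ y, ← inv_pow, one_mul] at *
  have s0 : 0 < y⁻¹ := inv_pos.2 y0
  have st : y * y⁻¹ = 1 := mul_inv_cancel₀ y0.ne'
  generalize y⁻¹ = s at *
  have u0 : MM 0 y ≤ s - s ^ 3 + 3 * s ^ 5 := by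
    have e : MM 0 y = s * (1 - MM 1 y) := by linear_combination s * e1 - MM 0 y * st
    linarith [mul_le_mul_of_nonneg_left l1.le s0.le]
  have u1 : MM 1 y ≤ s ^ 2 - 3 * s ^ 4 + 15 * s ^ 6 := by
    have e : MM 1 y = s * (MM 0 y - MM 2 y) := by linear_combination s * e2 - MM 1 y * st
    linarith [mul_le_mul_of_nonneg_left l2.le s0.le, mul_le_mul_of_nonneg_left u0 s0.le]
  refine ⟨⟨by linarith, by linarith⟩, ⟨by linarith, by linarith⟩, ⟨by linarith, by linarith⟩,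
    ⟨by linarith, by linarith⟩, ⟨by linarith, by linarith⟩⟩

theorem tailL {t : ℝ} (ht : t ≤ -6) : b t ≤ 0.163 ∧ b1 t ≤ 0.026 ∧ -t * b2 t ≤ 2 * b1 t ∧
    (-0.001 * b1 t ≤ b3 t ∧ b3 t ≤ 0.052) ∧ |b4 t| ≤ 0.34 ∧ 9 ≤ qq t ∧ 0.22 ≤ qq t * b1 t := by
  obtain ⟨y, rfl⟩ : ∃ y, t = -y := ⟨-t, by ring⟩
  have hy : 6 ≤ y := by linarith
  have y0 : 0 < y := by linarith
  obtain ⟨-, ⟨a1, -⟩, -, ⟨a3, c3⟩, a4, c4⟩ := tailS hy
  obtain ⟨⟨-, c0⟩, ⟨-, c1⟩, -⟩ := tailS (y := 6) le_rfl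
  have m0 := b_strictMono.monotone ht
  have m1 := b1_strictMono.monotone ht
  have e3 := b3_eq (-y)
  have v0 := va_pos (-y)
  have v1 := va_lt_one (-y)
  have p1 := b1_pos (-y)
  have k : y < kap (-y) := by rw [kap]; linarith [h_pos (-y)]
  have q : y ^ 2 / 4 ≤ qq (-y) := by
    have := pow_le_pow_left₀ y0.le k.le 2
    rw [qq]
    linarith
  have s0 : 0 < y⁻¹ := inv_pos.2 y0
  have s1 : y⁻¹ ≤ 1 / 6 := by rw [← one_div]; exact one_div_le_one_div_of_le (by norm_num) hy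
  have st : y * y⁻¹ = 1 := mul_inv_cancel₀ y0.ne'
  generalize y⁻¹ = s at *
  have w : ∀ n, s ^ (n + 1) ≤ s ^ n / 6 := fun n => by
    rw [pow_succ]
    linarith [mul_le_mul_of_nonneg_left s1 (pow_pos s0 n).le]
  have w' := fun n => pow_pos s0 n
  have b30 : 0 ≤ b3 (-y) := by linarith [w 4, w 5, w 6, w 7, w 8, w' 9]
  refine ⟨by norm_num at c0 ⊢; linarith, by norm_num at c1 ⊢; linarith, by linarith,
    ⟨by linarith, ?_⟩, abs_le.2 ⟨?_, ?_⟩, by nlinarith, ?_⟩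
  · linarith [w 0, w 1, w 2, w 3, w 4, w 5, w 6, w 7, w 8, w 9, w 10, w' 11, pow_zero s]
  · linarith [w 0, w 1, w 2, w 3, w 4, w 5, w 6, w 7, w' 8, pow_zero s]
  · linarith [w 0, w 1, w 2, w 3, w 4, w 5, w 6, w 7, w' 8, pow_zero s]
  · have h1 : 0.88 * s ^ 2 ≤ b1 (-y) := by
      linarith [w 2, w 3, w 4, w 5, w 6, w 7, w 8, w 9, w 10, w' 11]
    have h2 : y ^ 2 / 4 * (0.88 * s ^ 2) ≤ qq (-y) * b1 (-y) :=
      mul_le_mul q h1 (by positivity) (qq_pos _).le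
    have e : y ^ 2 / 4 * (0.88 * s ^ 2) = 0.22 := by
      linear_combination 0.22 * (y * s + 1) * st
    linarith

end Vale.Agent.P254.SF
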