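import Vale.Agent.P254Z.SF.Cell

/-!
# P254: the moments of the Mills ratio, and bounds on the right tail (helper39)
-/

namespace Vale.Agent.P254.SF

open MeasureTheory Filter Topology Set Real

/-- `M k z = ∫ s ^ k exp (-z s - s² / 2)` over `(0, ∞)` -/
noncomputable def MM (k : ℕ) (z : ℝ) : ℝ := II k z / ph z

lemma MM_pos (k : ℕ) (z : ℝ) : 0 < MM k z := div_pos (II_pos k z) (ph_pos z)

lemma MM_zero (z : ℝ) : MM 0 z = (h z)⁻¹ := by simp [MM, II, h]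

lemma MM_one (z : ℝ) : MM 1 z = 1 - z * MM 0 z := by
  have := (ph_pos z).ne'
  simp only [MM, II]
  field_simp

lemma MM_add_two (k : ℕ) (z : ℝ) : MM (k + 2) z = (k + 1) * MM k z - z * MM (k + 1) z := by
  simp only [MM, II]
  ring

lemma MM_zero_lt {z : ℝ} (hz : 0 < z) : MM 0 z < 1 / z := by
  rw [lt_div_iff₀ hz]
  have := MM_pos 1 z
  rw [MM_one] at this
  linarith

lemma MM_succ_lt (k : ℕ) {z : ℝ} (hz : 0 < z) : MM (k + 1) z < (k + 1) / z * MM k z := by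
  rw [div_mul_eq_mul_div, lt_div_iff₀ hz]
  have := MM_pos (k + 2) z
  rw [MM_add_two] at this
  linarith

lemma MM_lt (k : ℕ) {z : ℝ} (hz : 0 < z) : MM k z < k.factorial / z ^ (k + 1) := by
  induction k with
  | zero => simpa using MM_zero_lt hz
  | succ k ih =>
    refine (MM_succ_lt k hz).trans_le (le_trans (mul_le_mul_of_nonneg_left ih.le (by positivity))
      (le_of_eq ?_))
    rw [Nat.factorial_succ]
    push_cast
    field_simp
    ring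

lemma MM1_lt {z : ℝ} (hz : 0 < z) : MM 1 z < 1 / z ^ 2 := by simpa using MM_lt 1 hz

lemma MM2_lt {z : ℝ} (hz : 0 < z) : MM 2 z < 2 / z ^ 3 := by simpa using MM_lt 2 hz

lemma MM3_lt {z : ℝ} (hz : 0 < z) : MM 3 z < 6 / z ^ 4 := by
  simpa [Nat.factorial] using MM_lt 3 hz

lemma MM4_lt {z : ℝ} (hz : 0 < z) : MM 4 z < 24 / z ^ 5 := by
  simpa [Nat.factorial] using MM_lt 4 hz

lemma MM5_lt {z : ℝ} (hz : 0 < z) : MM 5 z < 120 / z ^ 6 := by
  simpa [Nat.factorial] using MM_lt 5 hz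

lemma MM6_lt {z : ℝ} (hz : 0 < z) : MM 6 z < 720 / z ^ 7 := by
  simpa [Nat.factorial] using MM_lt 6 hz

lemma MM2_eq (z : ℝ) : MM 2 z = MM 0 z - z * MM 1 z := by simpa using MM_add_two 0 z

lemma MM3_eq (z : ℝ) : MM 3 z = 2 * MM 1 z - z * MM 2 z := by
  rw [MM_add_two 1 z]; norm_num

lemma MM4_eq (z : ℝ) : MM 4 z = 3 * MM 2 z - z * MM 3 z := by
  rw [MM_add_two 2 z]; norm_num

lemma MM5_eq (z : ℝ) : MM 5 z = 4 * MM 3 z - z * MM 4 z := by
  rw [MM_add_two 3 z]; norm_num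

lemma MM6_eq (z : ℝ) : MM 6 z = 5 * MM 4 z - z * MM 5 z := by
  rw [MM_add_two 4 z]; norm_num

lemma h_mul_MM0 (z : ℝ) : h z * MM 0 z = 1 := by
  rw [MM_zero, mul_inv_cancel₀ (h_pos z).ne']

lemma kap_mul_MM0 (z : ℝ) : kap z * MM 0 z = MM 1 z := by
  rw [MM_one, kap]; linear_combination h_mul_MM0 z

lemma lt_MM0 {z : ℝ} (hz : 0 < z) : 1 / z - 1 / z ^ 3 < MM 0 z := by
  have h1 := MM1_lt hz
  rw [MM_one] at h1
  have : 1 / z - 1 / z ^ 3 = (1 - 1 / z ^ 2) / z := by field_simp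
  rw [this, div_lt_iff₀ hz]
  linarith

lemma lt_MM_succ (k : ℕ) {z : ℝ} (hz : 0 < z) :
    (k + 1) / z * MM k z - (k + 2).factorial / z ^ (k + 4) < MM (k + 1) z := by
  have h1 := MM_lt (k + 2) hz
  rw [MM_add_two] at h1
  have e : (k + 1) / z * MM k z - (k + 2).factorial / z ^ (k + 4) =
      ((k + 1) * MM k z - (k + 2).factorial / z ^ (k + 2 + 1)) / z := by
    field_simp
    ring
  rw [e, div_lt_iff₀ hz]
  linarith

lemma lt_MM1 {z : ℝ} (hz : 0 < z) : 1 / z ^ 2 - 3 / z ^ 4 < MM 1 z := by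
  have h1 := lt_MM_succ 0 hz
  have h2 := mul_lt_mul_of_pos_left (lt_MM0 hz) (one_div_pos.2 hz)
  have e : 1 / z * (1 / z - 1 / z ^ 3) = 1 / z ^ 2 - 1 / z ^ 4 := by field_simp
  have e2 : (3 : ℝ) / z ^ 4 = 1 / z ^ 4 + 2 / z ^ 4 := by ring
  norm_num [Nat.factorial] at h1 h2 e e2 ⊢
  linarith

lemma lt_MM2 {z : ℝ} (hz : 0 < z) : 2 / z ^ 3 - 12 / z ^ 5 < MM 2 z := by
  have h1 := lt_MM_succ 1 hz
  have h2 := mul_lt_mul_of_pos_left (lt_MM1 hz) (div_pos two_pos hz)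
  have e : 2 / z * (1 / z ^ 2 - 3 / z ^ 4) = 2 / z ^ 3 - 6 / z ^ 5 := by field_simp; ring
  have e2 : (12 : ℝ) / z ^ 5 = 6 / z ^ 5 + 6 / z ^ 5 := by ring
  norm_num [Nat.factorial] at h1 h2 e e2 ⊢
  linarith

/-- `L = log (h √(2π)) = E0 - z² / 2` -/
noncomputable def LL (z : ℝ) : ℝ := E0 z - z ^ 2 / 2

lemma LL_hasDerivAt (z : ℝ) : HasDerivAt LL (kap z) z := by
  refine ((E0_hasDerivAt z).sub (((hasDerivAt_id z).pow 2).div_const 2)).congr_deriv ?_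
  simp only [id, Nat.cast_ofNat, Nat.add_one_sub_one, pow_one, kap]
  ring

lemma LL_eq (z : ℝ) : LL z = log (h z) + log √(2 * π) := by rw [log_h, LL]; ring

lemma LL_strictMono : StrictMono LL := strictMono_of_hasDerivAt_pos LL_hasDerivAt kap_pos

lemma b_MM (z : ℝ) : b z = z / 2 + (LL z - 1 / 2) * MM 0 z + MM 2 z / 2 := by
  rw [MM2_eq, MM_one, b, div_eq_mul_inv, ← MM_zero, LL]
  ring

lemma b1_MM (z : ℝ) : b1 z = 1 / 2 - (LL z - 3 / 2) * MM 1 z - MM 3 z / 2 := by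
  have := (h_pos z).ne'
  simp only [b1, b, LL, MM3_eq, MM2_eq, MM_one, MM_zero, kap]
  field_simp
  ring

lemma b2_MM (z : ℝ) : b2 z = (LL z - 3 / 2) * MM 2 z + MM 4 z / 2 - kap z * MM 1 z := by
  have := (h_pos z).ne'
  simp only [b2, b, LL, MM4_eq, MM3_eq, MM2_eq, MM_one, MM_zero, kap]
  field_simp
  ring

lemma b3_MM (z : ℝ) : b3 z =
    -((LL z - 3 / 2) * MM 3 z) - MM 5 z / 2 + 2 * kap z * MM 2 z + va z * MM 1 z := by
  have := (h_pos z).ne'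
  simp only [b3, b1, b, LL, MM5_eq, MM4_eq, MM3_eq, MM2_eq, MM_one, MM_zero, va, kap]
  field_simp
  ring

lemma b4_MM (z : ℝ) : b4 z = (LL z - 3 / 2) * MM 4 z + MM 6 z / 2 - 3 * kap z * MM 3 z -
    3 * va z * MM 2 z - H2 z * MM 1 z := by
  have := (h_pos z).ne'
  simp only [b4, b3, b2, b1, b, LL, MM6_eq, MM5_eq, MM4_eq, MM3_eq, MM2_eq, MM_one, MM_zero, H2,
    va, kap]
  field_simp
  ring

lemma kap_lt {z : ℝ} (hz : 0 < z) : kap z < 1 / z := by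
  rw [lt_div_iff₀ hz]; linarith [m2_pos z]

lemma va_lt_inv {z : ℝ} (hz : 0 < z) : va z < 1 / z ^ 2 := by
  have h1 := pow_lt_pow_left₀ (kap_lt hz) (kap_pos z).le two_ne_zero
  rw [div_pow, one_pow] at h1
  exact (va_lt z).trans h1

lemma H2_rr (z : ℝ) : H2 z = kap z * rr 1 z * rr 2 z - 3 * kap z ^ 2 * rr 1 z + 2 * kap z ^ 3 := by
  have h0 := rr_mul 0 z
  have h1 := rr_mul 1 z
  rw [rr_zero] at h0
  norm_num at h0 h1
  rw [H2, va_eq, h_eq z]
  linear_combination (-kap z) * h1 + (z + 3 * kap z) * h0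

lemma va_rr (z : ℝ) : va z = kap z * (rr 1 z - kap z) := by
  have h0 := rr_mul 0 z
  rw [rr_zero] at h0
  norm_num at h0
  rw [va_eq]
  linear_combination (-1 : ℝ) * h0

lemma H2_lt {z : ℝ} (hz : 0 < z) : H2 z < 6 / z ^ 3 := by
  have k := kap_pos z
  have h1 : kap z < rr 1 z := by
    have := va_pos z
    rw [va_rr] at this
    exact sub_pos.1 (pos_of_mul_pos_right this k.le |> fun h => by
      by_contra hc
      nlinarith)
  have r1 := rr_lt 1 hz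
  have r2 := rr_lt 2 hz
  have r3 : kap z * rr 1 z * rr 2 z < 1 / z * (2 / z) * (3 / z) := by
    norm_num at r1 r2
    have := rr_pos 1 z
    have := rr_pos 2 z
    have := kap_lt hz
    gcongr
  have e : 1 / z * (2 / z) * (3 / z) = 6 / z ^ 3 := by field_simp; norm_num
  rw [H2_rr]
  nlinarith [mul_pos (mul_pos k k) (sub_pos.2 h1), mul_pos (mul_pos k k) k]

lemma lt_MM3 {z : ℝ} (hz : 0 < z) : 6 / z ^ 4 - 60 / z ^ 6 < MM 3 z := by
  have h1 := lt_MM_succ 2 hz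
  have h2 := mul_lt_mul_of_pos_left (lt_MM2 hz) (div_pos three_pos hz)
  have e : 3 / z * (2 / z ^ 3 - 12 / z ^ 5) = 6 / z ^ 4 - 36 / z ^ 6 := by field_simp; ring
  have e2 : (60 : ℝ) / z ^ 6 = 36 / z ^ 6 + 24 / z ^ 6 := by ring
  norm_num [Nat.factorial] at h1 h2 e e2 ⊢
  linarith

lemma lt_MM4 {z : ℝ} (hz : 0 < z) : 24 / z ^ 5 - 360 / z ^ 7 < MM 4 z := by
  have h1 := lt_MM_succ 3 hz
  have h2 := mul_lt_mul_of_pos_left (lt_MM3 hz) (div_pos four_pos hz)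
  have e : 4 / z * (6 / z ^ 4 - 60 / z ^ 6) = 24 / z ^ 5 - 240 / z ^ 7 := by field_simp; ring
  have e2 : (360 : ℝ) / z ^ 7 = 240 / z ^ 7 + 120 / z ^ 7 := by ring
  norm_num [Nat.factorial] at h1 h2 e e2 ⊢
  linarith

lemma lt_kap {z : ℝ} (hz : 0 < z) : 1 / z - 2 / z ^ 3 < kap z := by
  have h0 := rr_mul 0 z
  rw [rr_zero] at h0
  have r1 := rr_lt 1 hz
  have r0 := rr_pos 1 z
  have k := kap_lt hz
  have k0 := kap_pos z
  norm_num at h0 r1
  have h3 : kap z * rr 1 z < 1 / z * (2 / z) := by gcongr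
  have e : 1 / z - 2 / z ^ 3 = (1 - 1 / z * (2 / z)) / z := by field_simp
  rw [e, div_lt_iff₀ hz]
  linarith

lemma lt_va {z : ℝ} (hz : 0 < z) : 1 / z ^ 2 - 12 / z ^ 4 < va z := by
  have e : va z = h z * MM 2 z - kap z ^ 2 := by
    have := (h_pos z).ne'
    simp only [MM2_eq, MM_one, MM_zero, va, kap]
    field_simp
    ring
  have h1 : z * MM 2 z < h z * MM 2 z := mul_lt_mul_of_pos_right (lt_h z) (MM_pos 2 z)
  have h2 := mul_lt_mul_of_pos_left (lt_MM2 hz) hz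
  have e2 : z * (2 / z ^ 3 - 12 / z ^ 5) = 2 * (1 / z ^ 2) - 12 / z ^ 4 := by field_simp
  have h5 := pow_lt_pow_left₀ (kap_lt hz) (kap_pos z).le two_ne_zero
  rw [div_pow, one_pow] at h5
  linarith

lemma sqrt_two_pi_lt : √(2 * π) < 2.51 := by
  rw [sqrt_lt' (by norm_num)]
  linarith [pi_lt_d2]

lemma lt_sqrt_two_pi : 2.5 < √(2 * π) := by
  rw [lt_sqrt (by norm_num)]
  linarith [pi_gt_d2]

lemma LL_eq' (z : ℝ) : LL z = log (h z * √(2 * π)) := by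
  rw [LL_eq, log_mul (h_pos z).ne' sqrt_two_pi_pos.ne']

lemma exp_nat_gt (n : ℕ) : (2.718 : ℝ) ^ n ≤ exp n := by
  rw [← exp_one_pow]
  gcongr
  linarith [exp_one_gt_d9]

lemma exp_nat_lt (n : ℕ) : exp n ≤ (2.719 : ℝ) ^ n := by
  rw [← exp_one_pow]
  gcongr
  linarith [exp_one_lt_d9]

/-- tangent bound for `L` -/
lemma LL_le_tangent {a z : ℝ} (ha : 0 < a) (hz : a ≤ z) : LL z ≤ LL a + (z - a) / a := by
  have := le_of_deriv_nonneg (u := fun t => t / a - LL t) (u' := fun t => 1 / a - kap t) hz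
    (fun t _ => ((hasDerivAt_id t).div_const a).sub (LL_hasDerivAt t)) (fun t ht => by
      have h1 := kap_lt (ha.trans_le ht.1)
      have h2 : 1 / t ≤ 1 / a := one_div_le_one_div_of_le ha ht.1
      linarith)
  rw [sub_div]
  linarith

lemma LL_eight : LL 8 < 3.02 := by
  rw [LL_eq', log_lt_iff_lt_exp (mul_pos (h_pos 8) sqrt_two_pi_pos)]
  have h1 : h 8 < 8.125 := by
    have := kap_lt (z := 8) (by norm_num)
    rw [h_eq]
    linarith
  have h2 : h 8 * √(2 * π) < 8.125 * 2.51 :=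
    mul_lt_mul'' h1 sqrt_two_pi_lt (h_pos 8).le sqrt_two_pi_pos.le
  have h3 := exp_nat_gt 3
  have h4 := add_one_le_exp (0.02 : ℝ)
  have e : exp 3.02 = exp (3 : ℕ) * exp 0.02 := by rw [← exp_add]; norm_num
  rw [e]
  nlinarith

lemma LL_twelve : LL 12 < 3.44 := by
  rw [LL_eq', log_lt_iff_lt_exp (mul_pos (h_pos 12) sqrt_two_pi_pos)]
  have h1 : h 12 < 12.084 := by
    have := kap_lt (z := 12) (by norm_num)
    rw [h_eq]
    linarith
  have h2 : h 12 * √(2 * π) < 12.084 * 2.51 :=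
    mul_lt_mul'' h1 sqrt_two_pi_lt (h_pos 12).le sqrt_two_pi_pos.le
  have h3 := exp_nat_gt 3
  have h4 := quadratic_le_exp_of_nonneg (x := 0.44) (by norm_num)
  have e : exp 3.44 = exp (3 : ℕ) * exp 0.44 := by rw [← exp_add]; norm_num
  rw [e]
  nlinarith

lemma lt_LL {z : ℝ} (hz : 8 ≤ z) : 2.9 < LL z := by
  refine lt_of_lt_of_le ?_ (LL_strictMono.monotone hz)
  rw [LL_eq', lt_log_iff_exp_lt (mul_pos (h_pos 8) sqrt_two_pi_pos)]
  have h2 : 8 * 2.5 < h 8 * √(2 * π) :=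
    mul_lt_mul'' (lt_h 8) lt_sqrt_two_pi (by norm_num) (by norm_num)
  have h3 := exp_nat_lt 3
  have h4 := add_one_le_exp (0.1 : ℝ)
  have e : exp (3 : ℕ) = exp 2.9 * exp 0.1 := by rw [← exp_add]; norm_num
  have := exp_pos 2.9
  nlinarith

lemma LL_le8 {z : ℝ} (hz : 8 ≤ z) : LL z - 3 / 2 ≤ z / 5 := by
  linarith [LL_le_tangent (a := 8) (by norm_num) hz, LL_eight]

lemma LL_le12 {z : ℝ} (hz : 12 ≤ z) : LL z - 3 / 2 ≤ z / 6 := by
  linarith [LL_le_tangent (a := 12) (by norm_num) hz, LL_twelve]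

lemma LL_sixteen : LL 16 < 3.74 := by
  rw [LL_eq', log_lt_iff_lt_exp (mul_pos (h_pos 16) sqrt_two_pi_pos)]
  have h1 : h 16 < 16.07 := by
    have := kap_lt (z := 16) (by norm_num)
    rw [h_eq]
    linarith
  have h2 : h 16 * √(2 * π) < 16.07 * 2.51 :=
    mul_lt_mul'' h1 sqrt_two_pi_lt (h_pos 16).le sqrt_two_pi_pos.le
  have h3 := exp_nat_gt 3
  have h4 := quadratic_le_exp_of_nonneg (x := 0.74) (by norm_num)
  have e : exp 3.74 = exp (3 : ℕ) * exp 0.74 := by rw [← exp_add]; norm_num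
  rw [e]
  nlinarith

lemma LL_le16 {z : ℝ} (hz : 16 ≤ z) : LL z - 3 / 2 ≤ 0.14 * z := by
  linarith [LL_le_tangent (a := 16) (by norm_num) hz, LL_sixteen]

/-- The bounds on the right tail in terms of `P = L - 3 / 2` and `s = 1 / z`. -/
theorem tailP {z : ℝ} (hz : 8 ≤ z) :
    (z / 2 ≤ b z ∧ b z ≤ z / 2 + (LL z - 1 / 2) * z⁻¹ + z⁻¹ ^ 3) ∧
    (1 / 2 - (LL z - 3 / 2) * z⁻¹ ^ 2 - 3 * z⁻¹ ^ 4 ≤ b1 z) ∧
    b2 z ≤ 2 * (LL z - 3 / 2) * z⁻¹ ^ 3 ∧
    (-(6 * (LL z - 3 / 2) * z⁻¹ ^ 4) ≤ b3 z ∧ b3 z ≤ 0) ∧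
    (-(5 * z⁻¹ ^ 5) ≤ b4 z ∧ b4 z ≤ 24 * (LL z - 3 / 2) * z⁻¹ ^ 5) := by
  have z0 : 0 < z := by linarith
  have hP : 1.4 < LL z - 3 / 2 := by linarith [lt_LL hz]
  have m0 := MM_pos 0 z
  have m1 := MM_pos 1 z
  have m2 := MM_pos 2 z
  have m3 := MM_pos 3 z
  have m4 := MM_pos 4 z
  have m5 := MM_pos 5 z
  have m6 := MM_pos 6 z
  have u0 := MM_zero_lt z0
  have u1 := MM1_lt z0
  have u2 := MM2_lt z0
  have u3 := MM3_lt z0
  have u4 := MM4_lt z0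
  have u5 := MM5_lt z0
  have u6 := MM6_lt z0
  have l1 := lt_MM1 z0
  have l2 := lt_MM2 z0
  have l3 := lt_MM3 z0
  have l4 := lt_MM4 z0
  have k0 := kap_pos z
  have k1 := kap_lt z0
  have k2 := lt_kap z0
  have v0 := va_pos z
  have v1 := va_lt_inv z0
  have g0 := H2_pos z
  have g1 := H2_lt z0
  rw [b_MM, b1_MM, b2_MM, b3_MM, b4_MM]
  simp only [div_eq_mul_inv _ (z ^ _), div_eq_mul_inv _ z, ← inv_pow, one_mul] at *
  have s0 : 0 < z⁻¹ := inv_pos.2 z0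
  have s1 : z⁻¹ ≤ 1 / 8 := by rw [← one_div]; exact one_div_le_one_div_of_le (by norm_num) hz
  generalize z⁻¹ = s at *
  rw [show LL z - 1 / 2 = LL z - 3 / 2 + 1 by ring]
  generalize LL z - 3 / 2 = P at *
  generalize MM 0 z = M0 at *
  generalize MM 1 z = M1 at *
  generalize MM 2 z = M2 at *
  generalize MM 3 z = M3 at *
  generalize MM 4 z = M4 at *
  generalize MM 5 z = M5 at *
  generalize MM 6 z = M6 at *
  generalize kap z = k at *
  generalize va z = v at *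
  generalize H2 z = g at *
  have s2 : s ^ 2 ≤ 1 / 64 := (pow_le_pow_left₀ s0.le s1 2).trans (by norm_num)
  have p2 : 0 < s ^ 2 := by positivity
  have p3 : 0 < s ^ 3 := by positivity
  have p4 : 0 < s ^ 4 := by positivity
  have p5 : 0 < s ^ 5 := by positivity
  have q3 := mul_le_mul_of_nonneg_left s2 s0.le
  have q4 := mul_le_mul_of_nonneg_left s2 p2.le
  have q5 := mul_le_mul_of_nonneg_left s2 p3.le
  have q6 := mul_le_mul_of_nonneg_left s2 p4.le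
  have q7 := mul_le_mul_of_nonneg_left s2 p5.le
  have a0 : 0.96 * s ≤ k := by linarith
  have a1 : 0.96 * s * (0.95 * s ^ 2) ≤ k * M1 := by gcongr; linarith
  have a2 : 0.96 * s * (1.8 * s ^ 3) ≤ k * M2 := by gcongr; linarith
  have a3 : 0.96 * s * (5 * s ^ 4) ≤ k * M3 := by gcongr; linarith
  have c2 : k * M2 ≤ s * (2 * s ^ 3) := by gcongr
  have c3 : k * M3 ≤ s * (6 * s ^ 4) := by gcongr
  have c1 : v * M1 ≤ s ^ 2 * s ^ 2 := by gcongr
  have c4 : v * M2 ≤ s ^ 2 * (2 * s ^ 3) := by gcongr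
  have c5 : g * M1 ≤ 6 * s ^ 3 * s ^ 2 := by gcongr
  have P0 : 0 < P := by linarith
  have d0 : (P + 1) * M0 ≤ (P + 1) * s := by gcongr
  have d1 : P * M1 ≤ P * s ^ 2 := by gcongr
  have d2 : P * M2 ≤ P * (2 * s ^ 3) := by gcongr
  have d3 : P * M3 ≤ P * (6 * s ^ 4) := by gcongr
  have d4 : P * M4 ≤ P * (24 * s ^ 5) := by gcongr
  have e3 : 1.4 * (5 * s ^ 4) ≤ P * M3 := by gcongr; linarith
  have e4 : 1.4 * (18.375 * s ^ 5) ≤ P * M4 := by gcongr; linarith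
  have f0 : 0 < (P + 1) * M0 := by positivity
  have f1 : 0 < v * M1 := by positivity
  have f2 : 0 < v * M2 := by positivity
  have f3 : 0 < g * M1 := by positivity
  refine ⟨⟨by linarith, by linarith⟩, by linarith, by linarith, ⟨by linarith, by linarith⟩,
    ⟨by linarith, by linarith⟩⟩

theorem tailR {t : ℝ} (ht : 16 ≤ t) : 0.49 ≤ b1 t ∧ b t ≤ 0.52 * t ∧ t * b2 t ≤ 0.018 ∧
    (-0.053 ≤ t^2 * b3 t ∧ t^2 * b3 t ≤ 0.021) ∧ (-0.11 ≤ t^3 * b4 t ∧ t^3 * b4 t ≤ 0.21) ∧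
    0.72 ≤ t^2 * qq t := by
  have z0 : 0 < t := by linarith
  obtain ⟨⟨-, h0⟩, h1, h2, ⟨h3, h3'⟩, h4, h4'⟩ := tailP (z := t) (by linarith)
  have hP := LL_le16 ht
  have hP0 : 1.4 < LL t - 3 / 2 := by linarith [lt_LL (z := t) (by linarith)]
  have k2 := lt_kap z0
  have v1 := lt_va z0
  simp only [div_eq_mul_inv _ (t ^ _), div_eq_mul_inv _ t, ← inv_pow, one_mul] at k2 v1
  have s0 : 0 < t⁻¹ := inv_pos.2 z0
  have s1 : t⁻¹ ≤ 1 / 16 := by rw [← one_div]; exact one_div_le_one_div_of_le (by norm_num) ht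
  have st : t * t⁻¹ = 1 := mul_inv_cancel₀ z0.ne'
  generalize t⁻¹ = s at *
  rw [show LL t - 1 / 2 = LL t - 3 / 2 + 1 by ring] at h0
  generalize LL t - 3 / 2 = P at *
  have Ps : P * s ≤ 0.14 := by nlinarith
  have Ps2 : P * s ^ 2 ≤ 0.14 / 16 := by nlinarith
  have s2 : s ^ 2 ≤ 1 / 256 := by nlinarith
  have e2 : t ^ 2 * s ^ 2 = 1 := by rw [← mul_pow, st, one_pow]
  have e3 : t ^ 3 * s ^ 3 = 1 := by rw [← mul_pow, st, one_pow]
  have t2 : 0 < t ^ 2 := by positivity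
  have t3 : 0 < t ^ 3 := by positivity
  refine ⟨by nlinarith, by nlinarith, ?_, ⟨?_, by nlinarith⟩, ⟨?_, ?_⟩, ?_⟩
  · have := mul_le_mul_of_nonneg_left h2 z0.le
    have e : t * (2 * P * s ^ 3) = 2 * (P * s ^ 2) := by linear_combination 2 * P * s ^ 2 * st
    linarith
  · have := mul_le_mul_of_nonneg_left h3 t2.le
    have e : t ^ 2 * -(6 * P * s ^ 4) = -(6 * (P * s ^ 2)) := by
      linear_combination -(6 * P * s ^ 2) * e2
    linarith
  · have := mul_le_mul_of_nonneg_left h4 t3.le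
    have e : t ^ 3 * -(5 * s ^ 5) = -(5 * s ^ 2) := by linear_combination -(5 * s ^ 2) * e3
    linarith
  · have := mul_le_mul_of_nonneg_left h4' t3.le
    have e : t ^ 3 * (24 * P * s ^ 5) = 24 * (P * s ^ 2) := by
      linear_combination (24 * P * s ^ 2) * e3
    linarith
  · have k3 : (s - 2 * s ^ 3) ^ 2 ≤ kap t ^ 2 :=
      pow_le_pow_left₀ (by nlinarith) k2.le 2
    have k4 : s ^ 2 * (3 / 4 - 7 * s ^ 2) ≤ qq t := by
      unfold qq
      nlinarith [pow_pos s0 6]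
    have := mul_le_mul_of_nonneg_left k4 t2.le
    rw [← mul_assoc, e2] at this
    linarith

end Vale.Agent.P254.SF
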